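import Vale.Agent.P275CW.Cwt
import Vale.Agent.P275CC.Tw

/-!
# P275, the Chern-Weil theorem for the endomorphisms of a twisted bundle
-/

set_option linter.unusedSectionVars false
set_option backward.isDefEq.respectTransparency false

open scoped Manifold ContDiff Topology Matrix
open Filter Set
open Vale.Agent.P272.K Vale.Agent.P281Z.Hg Vale.Agent.P275MC Vale.Agent.P275KU Vale.Agent.P275OM
  Vale.Agent.P275OM.Fr Vale.Agent.P275Z P275CC

noncomputable section

namespace P275CW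

section alg

variable {Ω : Type} [Ring Ω] [Algebra ℂ Ω] {D : DG Ω} {n κ : Type} [Fintype n] [DecidableEq n]
  {i j : ℤ} {X Y A B g g' : Matrix n n Ω} {c : Ω}

/-- left multiplication -/
def Lm : Matrix n n Ω →ₗ[ℂ] Matrix (n × n) (n × n) Ω where
  toFun X := Matrix.of fun p q => if p.2 = q.2 then X p.1 q.1 else 0
  map_add' X Y := by
    ext p q
    simp only [Matrix.of_apply, Matrix.add_apply]
    split_ifs <;> simp
  map_smul' c X := by
    ext p q
    simp only [Matrix.of_apply, Matrix.smul_apply, RingHom.id_apply]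
    split_ifs <;> simp

/-- right multiplication -/
def Rm : Matrix n n Ω →ₗ[ℂ] Matrix (n × n) (n × n) Ω where
  toFun X := Matrix.of fun p q => if p.1 = q.1 then X q.2 p.2 else 0
  map_add' X Y := by
    ext p q
    simp only [Matrix.of_apply, Matrix.add_apply]
    split_ifs <;> simp
  map_smul' c X := by
    ext p q
    simp only [Matrix.of_apply, Matrix.smul_apply, RingHom.id_apply]
    split_ifs <;> simp

theorem Lm_apply (X : Matrix n n Ω) (p q : n × n) :
    Lm X p q = if p.2 = q.2 then X p.1 q.1 else 0 := rfl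

theorem Rm_apply (X : Matrix n n Ω) (p q : n × n) :
    Rm X p q = if p.1 = q.1 then X q.2 p.2 else 0 := rfl

theorem Lm_mem (h : X ∈ D.M i n n) : Lm X ∈ D.M i (n × n) (n × n) := fun p q => by
  rw [Lm_apply]
  split_ifs
  exacts [h _ _, zero_mem _]

theorem Rm_mem (h : X ∈ D.M i n n) : Rm X ∈ D.M i (n × n) (n × n) := fun p q => by
  rw [Rm_apply]
  split_ifs
  exacts [h _ _, zero_mem _]

theorem dm_Lm (X : Matrix n n Ω) : D.dm (Lm X) = Lm (D.dm X) := by
  ext p q
  rw [DG.dm_apply, Lm_apply, Lm_apply]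
  split_ifs
  exacts [rfl, map_zero _]

theorem dm_Rm (X : Matrix n n Ω) : D.dm (Rm X) = Rm (D.dm X) := by
  ext p q
  rw [DG.dm_apply, Rm_apply, Rm_apply]
  split_ifs
  exacts [rfl, map_zero _]

theorem Lm_Lm (X Y : Matrix n n Ω) : Lm X * Lm Y = Lm (X * Y) := by
  ext p q
  simp only [Matrix.mul_apply, Lm_apply, Fintype.sum_prod_type, ite_mul, zero_mul,
    Finset.mem_univ, if_true, mul_ite, mul_zero, Finset.sum_ite_eq']
  split_ifs <;> simp

theorem Lm_Rm (X Y : Matrix n n Ω) (p q : n × n) : (Lm X * Rm Y) p q = X p.1 q.1 * Y q.2 p.2 := by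
  simp [Matrix.mul_apply, Lm_apply, Rm_apply, Fintype.sum_prod_type]

theorem Rm_Lm (X Y : Matrix n n Ω) (p q : n × n) : (Rm Y * Lm X) p q = Y q.2 p.2 * X p.1 q.1 := by
  simp [Matrix.mul_apply, Lm_apply, Rm_apply, Fintype.sum_prod_type]

theorem Rm_Lm_cm (hX : X ∈ D.M i n n) (hY : Y ∈ D.M j n n) :
    Rm Y * Lm X = (j * i).negOnePow • (Lm X * Rm Y) := by
  ext p q
  rw [Matrix.smul_apply, Rm_Lm, Lm_Rm, D.cm (hY _ _) (hX _ _)]

theorem Rm_Rm (hX : X ∈ D.M i n n) (hY : Y ∈ D.M j n n) :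
    Rm X * Rm Y = (i * j).negOnePow • Rm (Y * X) := by
  ext p q
  simp only [Matrix.mul_apply, Rm_apply, Fintype.sum_prod_type, ite_mul, zero_mul,
    mul_ite, mul_zero, Matrix.smul_apply]
  rw [Finset.sum_comm]
  simp only [Finset.sum_ite_eq', Finset.mem_univ, if_true]
  split_ifs
  · rw [Finset.smul_sum]
    exact Finset.sum_congr rfl fun a _ => D.cm (hX _ _) (hY _ _)
  · simp

theorem tr_Lm (X : Matrix n n Ω) : (Lm X).trace = Fintype.card n • X.trace := by
  simp [Matrix.trace, Lm_apply, Fintype.sum_prod_type, Finset.smul_sum]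

theorem tr_Rm (X : Matrix n n Ω) : (Rm X).trace = Fintype.card n • X.trace := by
  simp [Matrix.trace, Rm_apply, Fintype.sum_prod_type]

theorem tr_Lm_Rm (X Y : Matrix n n Ω) : (Lm X * Rm Y).trace = X.trace * Y.trace := by
  simp only [Matrix.trace, Matrix.diag, Lm_Rm, Fintype.sum_prod_type, Finset.sum_mul_sum]

theorem cur_ad (hA : A ∈ D.M 1 n n) : D.cur (Lm A - Rm A) = Lm (D.cur A) - Rm (D.cur A) := by
  simp only [DG.cur, map_sub, map_add, dm_Lm, dm_Rm, Matrix.sub_mul, Matrix.mul_sub, Lm_Lm,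
    Rm_Lm_cm hA hA, Rm_Rm hA hA, mul_one, Int.negOnePow_one, Units.neg_smul, one_smul]
  abel

theorem tr_ad (X : Matrix n n Ω) : (Lm X - Rm X).trace = 0 := by
  rw [Matrix.trace_sub, tr_Lm, tr_Rm, sub_self]

theorem tr_ad_sq (hX : X ∈ D.M 2 n n) : ((Lm X - Rm X) * (Lm X - Rm X)).trace =
    (2 * Fintype.card n : ℂ) • (X * X).trace - (2 : ℂ) • (X.trace * X.trace) := by
  simp only [Matrix.sub_mul, Matrix.mul_sub, Lm_Lm, Rm_Lm_cm hX hX, Rm_Rm hX hX,
    Int.negOnePow_even (2 * 2) (by decide), one_smul, Matrix.trace_sub, tr_Lm, tr_Rm, tr_Lm_Rm,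
    ← Nat.cast_smul_eq_nsmul ℂ]
  module

theorem DG.mul_sm {l m : Type} [Fintype m] {X : Matrix l m Ω} (hX : X ∈ D.M 0 l m)
    (hc : c ∈ D.G i) (Y : Matrix m n Ω) : X * (c • Y) = c • (X * Y) := by
  ext a b
  have : ∀ e, X a e * c = c * X a e := fun e => by simpa using D.cm (hX a e) hc
  simp only [Matrix.mul_apply, Matrix.smul_apply, smul_eq_mul, Finset.mul_sum, ← mul_assoc, this]

/-- the transformation law for the endomorphisms -/
theorem law_ad (hg : g ∈ D.M 0 n n) (hg' : g' ∈ D.M 0 n n) (h1 : g * g' = 1) (h2 : g' * g = 1)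
    (hA : A ∈ D.M 1 n n) (hB : B ∈ D.M 1 n n) (hc : c ∈ D.G 1)
    (h : D.dm g + A * g = g * B + c • g) :
    D.dm (Lm g * Rm g') + (Lm A - Rm A) * (Lm g * Rm g') = Lm g * Rm g' * (Lm B - Rm B) := by
  have e1 : D.dm g = g * B + c • g - A * g := eq_sub_of_add_eq h
  have e2 : D.dm g' = g' * A - B * g' - c • g' := by
    have := congrArg (D.dm · * g') h2
    simp only [DG.dm_ev hg' Even.zero, DG.dm_one, Matrix.zero_mul, Matrix.add_mul, e1,
      Matrix.mul_sub, Matrix.mul_add, Matrix.sub_mul, DG.mul_sm hg' hc, Matrix.smul_mul,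
      Matrix.mul_assoc, h1, Matrix.mul_one] at this
    rw [← Matrix.mul_assoc g' g, h2, Matrix.one_mul] at this
    rw [eq_neg_of_add_eq_zero_left this]
    abel
  have e3 : Lm (c • g) * Rm g' = Lm g * Rm (c • g') := by
    ext p q
    have : g p.1 q.1 * c = c * g p.1 q.1 := by simpa using D.cm (hg _ _) hc
    simp only [Lm_Rm, Matrix.smul_apply, smul_eq_mul, ← mul_assoc, this]
  have e4 : Rm A * (Lm g * Rm g') = Lm g * Rm (g' * A) := by
    rw [← Matrix.mul_assoc, Rm_Lm_cm hg hA, mul_zero, Int.negOnePow_zero, one_smul,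
      Matrix.mul_assoc, Rm_Rm hA hg', mul_zero, Int.negOnePow_zero, one_smul]
  have e5 : Lm g * Rm g' * Lm B = Lm (g * B) * Rm g' := by
    rw [Matrix.mul_assoc, Rm_Lm_cm hB hg', zero_mul, Int.negOnePow_zero, one_smul,
      ← Matrix.mul_assoc, Lm_Lm]
  have e6 : Lm g * Rm g' * Rm B = Lm g * Rm (B * g') := by
    rw [Matrix.mul_assoc, Rm_Rm hg' hB, zero_mul, Int.negOnePow_zero, one_smul]
  rw [DG.dm_ev (Lm_mem hg) Even.zero, dm_Lm, dm_Rm, Matrix.sub_mul, Matrix.mul_sub, e4, e5, e6,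
    ← Matrix.mul_assoc, Lm_Lm, e1, e2]
  simp only [map_sub, map_add, Matrix.sub_mul, Matrix.mul_sub, Matrix.add_mul, e3]
  abel

/-- averages of connections -/
theorem law_sum [Fintype κ] {ρ c : κ → Ω} {A B : κ → Matrix n n Ω} (hg : g ∈ D.M 0 n n)
    (hρ : ∀ k, ρ k ∈ D.G 0) (h1 : ∑ k, ρ k = 1)
    (h : ∀ k, ρ k = 0 ∨ D.dm g + A k * g = g * B k + c k • g) :
    D.dm g + (∑ k, ρ k • A k) * g = g * (∑ k, ρ k • B k) + (∑ k, ρ k * c k) • g := by
  rw [← one_smul Ω (D.dm g), ← h1, Finset.sum_smul, Finset.sum_mul, Finset.mul_sum,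
    Finset.sum_smul, ← Finset.sum_add_distrib, ← Finset.sum_add_distrib]
  refine Finset.sum_congr rfl fun k _ => ?_
  rw [Matrix.smul_mul, DG.mul_sm hg (hρ k), mul_smul, ← smul_add, ← smul_add]
  rcases h k with e | e
  · rw [e, zero_smul, zero_smul]
  · rw [e]

/-- a connection matrix in two frames -/
theorem law_two {u u' v v' : Matrix n n Ω} {a a' : Ω} (hu : u ∈ D.M 0 n n) (hu' : u' ∈ D.M 0 n n)
    (ha : a ∈ D.G 0) (ha' : a' ∈ D.G 0) (hB : B ∈ D.M i n n)
    (h1 : u * u' = 1) (h2 : u' * u = 1) (h3 : v * v' = 1) (h4 : a' * a = 1) (h : g * v = a • u) :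
    D.dm g + (u * D.dm u' + u * B * u') * g =
      g * (v * D.dm v' + v * B * v') + (a' * D.d a) • g := by
  have e0 : g = a • (u * v') := by rw [← Matrix.smul_mul, ← h, Matrix.mul_assoc, h3, Matrix.mul_one]
  have e1 : u' * g = a • v' := by
    rw [e0, DG.mul_sm hu' ha, ← Matrix.mul_assoc, h2, Matrix.one_mul]
  have e2 : D.dm (a • v') = D.d a • v' + a • D.dm v' := by
    ext p q
    simpa [DG.dm_apply] using D.lb (v' p q) ha
  have e3 := congrArg (u * D.dm ·) e1
  simp only [DG.dm_ev hu' Even.zero, e2, Matrix.mul_add, ← Matrix.mul_assoc, h1, Matrix.one_mul,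
    DG.mul_sm hu ha, DG.mul_sm hu (D.dG ha)] at e3
  have e4 : u * B * u' * g = g * (v * B * v') := by
    rw [Matrix.mul_assoc, e1, ← Matrix.mul_assoc g, ← Matrix.mul_assoc g, h, Matrix.smul_mul,
      Matrix.smul_mul]
    ext p q
    have : ∀ e, (u * B) p e * a = a * (u * B) p e := fun e => by
      simpa using (D.cm ha (DG.M.mul hu hB (zero_add i) p e)).symm
    simp only [Matrix.mul_apply (M := u * B), Matrix.smul_apply, smul_eq_mul, Finset.mul_sum,
      ← mul_assoc, this]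
  have e5 : (a' * D.d a) • g = D.d a • (u * v') := by
    have k1 : a' * D.d a = D.d a * a' := by simpa using D.cm ha' (D.dG ha)
    rw [e0, smul_smul, k1, mul_assoc, h4, mul_one]
  rw [Matrix.add_mul, Matrix.mul_add, e4, e5, ← Matrix.mul_assoc g v, h, Matrix.smul_mul,
    ← add_assoc, add_comm (D.dm g), e3]
  abel

end alg

variable {d : ℕ} {M : Type} [TopologicalSpace M] [ChartedSpace (Cm d) M] {x : M}
  {n κ : Type} [Fintype n] [DecidableEq n] {F : M → Matrix n n ℂ}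

theorem Sa.prod {ι : Type*} (s : Finset ι) {f : ι → M → ℂ} (h : ∀ i ∈ s, Sa d x (f i)) :
    Sa d x fun y => ∏ i ∈ s, f i y := by
  classical
  induction s using Finset.induction_on with
  | empty => exact Sa.const 1
  | insert a s ha ih =>
    simp only [Finset.prod_insert ha]
    exact (h a (by simp)).mul (ih fun i hi => h i (by simp [hi]))

theorem SaM.det (h : SaM d x F) : Sa d x fun y => (F y).det := by
  simp only [Matrix.det_apply']
  exact Sa.sum _ fun σ _ => (Sa.const _).mul (Sa.prod _ fun i _ => h _ _)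

theorem SaM.adjugate (h : SaM d x F) : SaM d x fun y => (F y).adjugate := fun a b => by
  simp only [Matrix.adjugate_apply]
  refine SaM.det fun p q => ?_
  simp only [Matrix.updateRow_apply]
  split_ifs
  exacts [Sa.const _, h _ _]

theorem LrM.lm {A : ∀ y : M, Matrix n n (Gx d y)} (h : LrM A x) : LrM (fun y => Lm (A y)) x :=
  fun p q => by
  simp only [Lm_apply]
  split_ifs
  exacts [h _ _, Lr.zero]

theorem LrM.rm {A : ∀ y : M, Matrix n n (Gx d y)} (h : LrM A x) : LrM (fun y => Rm (A y)) x :=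
  fun p q => by
  simp only [Rm_apply]
  split_ifs
  exacts [h _ _, Lr.zero]

variable [IsManifold 𝓘(ℂ, Cm d) ω M] [Nc M]

theorem SaM.inv (h : SaM d x F) (h0 : (F x).det ≠ 0) : SaM d x fun y => (F y)⁻¹ := by
  simp only [Matrix.inv_def, Ring.inverse_eq_inv']
  exact h.adjugate.smul (h.det.inv h0)

theorem SaM.ev_det (h : SaM d x F) (h0 : (F x).det ≠ 0) : ∀ᶠ y in 𝓝 x, (F y).det ≠ 0 :=
  h.det.cont.eventually_ne h0

theorem gM_inv (h : SaM d x F) (h0 : (F x).det ≠ 0) :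
    gM d x F * gM d x (fun y => (F y)⁻¹) = 1 ∧ gM d x (fun y => (F y)⁻¹) * gM d x F = 1 :=
  ⟨(gM_mul_eq h (h.inv h0) ((h.ev_det h0).mono fun _ e =>
      Matrix.mul_nonsing_inv _ (Ne.isUnit e))).trans gM_one,
    (gM_mul_eq (h.inv h0) h ((h.ev_det h0).mono fun _ e =>
      Matrix.nonsing_inv_mul _ (Ne.isUnit e))).trans gM_one⟩

/-- local connection matrices for a smooth twisted cocycle -/
structure TCon (T : TB M n) (A : T.ι → ∀ x : M, Matrix n n (Gx d x)) : Prop where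
  sm : ∀ i j x, x ∈ T.U i → x ∈ T.U j → SaM d x (T.g i j)
  mem : ∀ i, ∀ x ∈ T.U i, A i x ∈ (dgG d x).M 1 n n
  lr : ∀ i, ∀ x ∈ T.U i, LrM (A i) x
  law : ∀ i j x, x ∈ T.U i → x ∈ T.U j → ∃ c ∈ (dgG d x).G 1,
    (dgG d x).dm (gM d x (T.g i j)) + A i x * gM d x (T.g i j) =
      gM d x (T.g i j) * A j x + c • gM d x (T.g i j)

variable {T : TB M n} {A : T.ι → ∀ x : M, Matrix n n (Gx d x)}

theorem TCon.end (h : TCon T A) : LCon T.End fun i x => Lm (A i x) - Rm (A i x) where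
  sm i j x hi hj p q :=
    (h.sm i j x hi hj p.1 q.1).mul ((h.sm i j x hi hj).inv (T.nz i j x hi hj) q.2 p.2)
  mem i x hi := sub_mem (Lm_mem (h.mem i x hi)) (Rm_mem (h.mem i x hi))
  lr i x hi := (h.lr i x hi).lm.sub (h.lr i x hi).rm
  law i j x hi hj := by
    obtain ⟨c, hc, e⟩ := h.law i j x hi hj
    obtain ⟨k1, k2⟩ := gM_inv (h.sm i j x hi hj) (T.nz i j x hi hj)
    have : gM d x (T.End.g i j) = Lm (gM d x (T.g i j)) * Rm (gM d x fun y => (T.g i j y)⁻¹) :=
      Matrix.ext fun p q => (gm_mul (h.sm i j x hi hj p.1 q.1)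
        ((h.sm i j x hi hj).inv (T.nz i j x hi hj) q.2 p.2)).trans
          (Lm_Rm (gM d x (T.g i j)) (gM d x fun y => (T.g i j y)⁻¹) p q).symm
    rw [this]
    exact law_ad (gM_mem _) (gM_mem _) k1 k2 (h.mem i x hi) (h.mem j x hj) hc e

/-- **Chern-Weil theorem** for the endomorphisms of a twisted bundle -/
theorem cwe (h : MV0 ∧ LHP) (hA : TCon T A) {F : Fr d M} (e : ∀ i, ∀ x ∈ T.U i, gq x F =
    (2 * Fintype.card n : ℂ) • ((dgG d x).cur (A i x) * (dgG d x).cur (A i x)).trace -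
      (2 : ℂ) • (((dgG d x).cur (A i x)).trace * ((dgG d x).cur (A i x)).trace)) :
    ((thOf h).p2 T.End).1 = cF F :=
  (cwt h hA.end (F₁ := 0) (fun i x hi => by rw [cur_ad (hA.mem i x hi), tr_ad, map_zero])
    fun i x hi => by rw [cur_ad (hA.mem i x hi), tr_ad_sq (DG.cur_mem (hA.mem i x hi)), e i x hi]).2

/-- the form exists and is closed -/
theorem TCon.ex (hA : TCon T A) : ∃ F ∈ (dgF d M).G 4, (dgF d M).d F = 0 ∧ ∀ i, ∀ x ∈ T.U i, gq x F =
    (2 * Fintype.card n : ℂ) • ((dgG d x).cur (A i x) * (dgG d x).cur (A i x)).trace -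
      (2 : ℂ) • (((dgG d x).cur (A i x)).trace * ((dgG d x).cur (A i x)).trace) := by
  obtain ⟨-, F, -, e⟩ := hA.end.ex
  refine ⟨F, mem_of_gq fun x => ?_, gq_ext fun x => ?_, fun i x hi => by
    rw [e i x hi, cur_ad (hA.mem i x hi), tr_ad_sq (DG.cur_mem (hA.mem i x hi))]⟩
  all_goals obtain ⟨i, hi⟩ := T.cov x
  · have := (hA.end.con hi).c2_mem
    rwa [DG.c2, Matrix.one_mul, ← e i x hi] at this
  · have := (hA.end.con hi).d_c2
    rwa [DG.c2, Matrix.one_mul, ← e i x hi, ← (hom_gq x).d, ← map_zero (gq x)] at this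

/-- the average of local connections -/
theorem tcon_pu [Fintype κ] (sm : ∀ i j x, x ∈ T.U i → x ∈ T.U j → SaM d x (T.g i j))
    (ix : κ → T.ι) {ρ : κ → M → ℂ} (h1 : ∀ k, SmC d (ρ k)) (h2 : ∀ k, tsupport (ρ k) ⊆ T.U (ix k))
    (h3 : ∀ x, ∑ k, ρ k x = 1) {B : κ → ∀ x : M, Matrix n n (Gx d x)}
    (mem : ∀ k, ∀ x ∈ T.U (ix k), B k x ∈ (dgG d x).M 1 n n)
    (lr : ∀ k, ∀ x ∈ T.U (ix k), LrM (B k) x) : TCon T fun i x => ∑ k, gm d x (ρ k) •
      (gM d x (T.g i (ix k)) * (dgG d x).dm (gM d x fun y => (T.g i (ix k) y)⁻¹) +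
        gM d x (T.g i (ix k)) * B k x * gM d x fun y => (T.g i (ix k) y)⁻¹) where
  sm := sm
  mem i x hi := sum_mem fun k _ => by
    by_cases hk : x ∈ tsupport (ρ k)
    · exact fun p q => (dgG d x).mul (gm_mem _) (add_mem (DG.M.mul (gM_mem _) (DG.M.dm (gM_mem _))
        rfl) (DG.M.mul (DG.M.mul (gM_mem _) (mem k x (h2 k hk)) rfl) (gM_mem _) rfl) p q)
    · rw [gm_off hk, zero_smul]
      exact zero_mem _
  lr i x hi := LrM.sum _ fun k _ => LrM.cut (Sa.of (h1 k) x) fun hk =>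
    have a := sm i _ x hi (h2 k hk)
    have b := a.inv (T.nz i _ x hi (h2 k hk))
    ((LrM.gM a).mul (LrM.gM b).dm).add (((LrM.gM a).mul (lr k x (h2 k hk))).mul (LrM.gM b))
  law i j x hi hj := by
    rcases isEmpty_or_nonempty n with hn | ⟨⟨o⟩⟩
    · exact ⟨0, zero_mem _, Subsingleton.elim _ _⟩
    let a : κ → M → ℂ := fun k y => (T.g i j y * T.g j (ix k) y * (T.g i (ix k) y)⁻¹) o o
    refine ⟨∑ k, gm d x (ρ k) * (gm d x (fun y => (a k y)⁻¹) * (dgG d x).d (gm d x (a k))),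
      sum_mem fun k _ => (dgG d x).mul (gm_mem _) ((dgG d x).mul (gm_mem _) (d_gm_mem _)),
      law_sum (gM_mem _) (fun _ => gm_mem _) ?_ fun k => ?_⟩
    · rw [← gm_sum _ fun k _ => Sa.of (h1 k) x]
      simp only [h3, gm_one]
    by_cases hk : x ∈ tsupport (ρ k)
    swap
    · exact .inl (gm_off hk)
    have hk := h2 k hk
    have s1 := sm i _ x hi hk
    have s2 := sm j _ x hj hk
    have n1 := T.nz i _ x hi hk
    have sa : Sa d x (a k) := ((sm i j x hi hj).mul s2).mul (s1.inv n1) o o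
    have ea : ∀ y, y ∈ T.U i → y ∈ T.U j → y ∈ T.U (ix k) →
        T.g i j y * T.g j (ix k) y = a k y • T.g i (ix k) y := fun y b1 b2 b3 => by
      obtain ⟨c, hc⟩ := T.cc i j _ y b1 b2 b3
      simp only [a, hc, Matrix.smul_mul, Matrix.mul_nonsing_inv _ (T.nz i _ y b1 b3).isUnit,
        Matrix.smul_apply, Matrix.one_apply_eq, smul_eq_mul, mul_one]
    have na : a k x ≠ 0 := fun e => by
      have := congrArg Matrix.det (ea x hi hj hk)
      have _ : Nonempty n := ⟨o⟩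
      rw [e, zero_smul, Matrix.det_mul, Matrix.det_zero] at this
      exact mul_ne_zero (T.nz i j x hi hj) (T.nz j _ x hj hk) this
    refine .inr (law_two (gM_mem _) (gM_mem _) (gm_mem _) (gm_mem _) (mem k x hk)
      (gM_inv s1 n1).1 (gM_inv s1 n1).2 (gM_inv s2 (T.nz j _ x hj hk)).1 ?_ ?_)
    · rw [← gm_mul (sa.inv na) sa, ← gm_one]
      exact gm_congr ((sa.cont.eventually_ne na).mono fun y => inv_mul_cancel₀)
    · rw [← gM_smul sa s1]
      refine gM_mul_eq (sm i j x hi hj) s2 ?_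
      filter_upwards [(T.op i).eventually_mem hi, (T.op j).eventually_mem hj,
        (T.op _).eventually_mem hk] with y using ea y

theorem LCon.tcon {V : VB M n} {A : V.ι → ∀ x : M, Matrix n n (Gx d x)} (h : LCon V A) :
    TCon V.tb A := ⟨h.sm, h.mem, h.lr, fun i j x hi hj =>
      ⟨0, zero_mem _, by rw [zero_smul, add_zero]; exact h.law i j x hi hj⟩⟩

end P275CW
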