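import Mathlib.LinearAlgebra.Matrix.Trace
import Mathlib.Algebra.Ring.NegOnePow
import Mathlib.Data.Complex.Basic
import Mathlib.Tactic.Abel
import Mathlib.Tactic.NoncommRing
import Mathlib.Tactic.Module

/-! Chern-Weil algebra over a graded commutative differential algebra. -/

open Matrix

namespace P275CW

/-- a graded commutative differential algebra -/
structure DG (Ω : Type) [Ring Ω] [Algebra ℂ Ω] where
  G : ℤ → Submodule ℂ Ω
  d : Ω →ₗ[ℂ] Ω
  one : (1 : Ω) ∈ G 0
  mul : ∀ {i j : ℤ} {a b : Ω}, a ∈ G i → b ∈ G j → a * b ∈ G (i + j)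
  dG : ∀ {i : ℤ} {a : Ω}, a ∈ G i → d a ∈ G (i + 1)
  dd : ∀ a, d (d a) = 0
  lb : ∀ {i : ℤ} {a : Ω} (b : Ω), a ∈ G i → d (a * b) = d a * b + i.negOnePow • (a * d b)
  cm : ∀ {i j : ℤ} {a b : Ω}, a ∈ G i → b ∈ G j → a * b = (i * j).negOnePow • (b * a)

variable {Ω : Type} [Ring Ω] [Algebra ℂ Ω] (D : DG Ω) {l m n : Type}

namespace DG

/-- matrices of forms of degree `i` -/
def M (i : ℤ) (m n : Type) : Submodule ℂ (Matrix m n Ω) where
  carrier := {X | ∀ a b, X a b ∈ D.G i}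
  add_mem' h h' a b := add_mem (h a b) (h' a b)
  zero_mem' _ _ := zero_mem _
  smul_mem' c _ h a b := Submodule.smul_mem _ c (h a b)

/-- the differential of a matrix -/
def dm : Matrix m n Ω →ₗ[ℂ] Matrix m n Ω := LinearMap.mapMatrix D.d

theorem dm_apply (X : Matrix m n Ω) (a : m) (b : n) : D.dm X a b = D.d (X a b) := rfl

theorem dm_dm (X : Matrix m n Ω) : D.dm (D.dm X) = 0 := by
  ext a b
  exact D.dd _

theorem d_one : D.d 1 = 0 := by
  have h := D.lb 1 D.one
  simp only [mul_one, Int.negOnePow_zero, one_smul, one_mul] at h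
  exact left_eq_add.1 h

variable {D} {i j k : ℤ}

theorem M.cast {X : Matrix m n Ω} (h : X ∈ D.M i m n) (e : i = j) : X ∈ D.M j m n := e ▸ h

theorem M.dm {X : Matrix m n Ω} (h : X ∈ D.M i m n) : D.dm X ∈ D.M (i + 1) m n :=
  fun a b => D.dG (h a b)

theorem M.one [DecidableEq n] : (1 : Matrix n n Ω) ∈ D.M 0 n n := fun a b => by
  rw [Matrix.one_apply]
  split_ifs
  · exact D.one
  · exact zero_mem _

theorem dm_one [DecidableEq n] : D.dm (1 : Matrix n n Ω) = 0 := by
  ext a b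
  rw [dm_apply, Matrix.one_apply]
  split_ifs
  · exact D.d_one
  · exact map_zero _

variable [Fintype m]

theorem M.mul {X : Matrix l m Ω} {Y : Matrix m n Ω} (h : X ∈ D.M i l m) (h' : Y ∈ D.M j m n)
    (e : i + j = k) : X * Y ∈ D.M k l n := fun a b => by
  rw [Matrix.mul_apply]
  exact sum_mem fun c _ => e ▸ D.mul (h a c) (h' c b)

theorem dm_mul {X : Matrix l m Ω} (h : X ∈ D.M i l m) (Y : Matrix m n Ω) :
    D.dm (X * Y) = D.dm X * Y + i.negOnePow • (X * D.dm Y) := by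
  ext a b
  simp only [dm_apply, Matrix.mul_apply, map_sum, Matrix.add_apply, Matrix.smul_apply,
    Finset.smul_sum, ← Finset.sum_add_distrib]
  exact Finset.sum_congr rfl fun c _ => D.lb _ (h a c)

theorem dm_ev {X : Matrix l m Ω} (h : X ∈ D.M i l m) (e : Even i) (Y : Matrix m n Ω) :
    D.dm (X * Y) = D.dm X * Y + X * D.dm Y := by
  rw [dm_mul h, Int.negOnePow_even _ e, one_smul]

theorem dm_od {X : Matrix l m Ω} (h : X ∈ D.M i l m) (e : Odd i) (Y : Matrix m n Ω) :
    D.dm (X * Y) = D.dm X * Y - X * D.dm Y := by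
  rw [dm_mul h, Int.negOnePow_odd _ e, Units.neg_smul, one_smul, sub_eq_add_neg]

theorem d_tr (X : Matrix m m Ω) : D.d (trace X) = trace (D.dm X) := map_sum D.d _ _

theorem M.tr {X : Matrix m m Ω} (h : X ∈ D.M i m m) : trace X ∈ D.G i :=
  sum_mem fun a _ => h a a

variable [Fintype n]

theorem tr_cm {X : Matrix m n Ω} {Y : Matrix n m Ω} (h : X ∈ D.M i m n) (h' : Y ∈ D.M j n m) :
    trace (X * Y) = (i * j).negOnePow • trace (Y * X) := by
  simp only [trace, diag, Matrix.mul_apply, Finset.smul_sum]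
  rw [Finset.sum_comm]
  exact Finset.sum_congr rfl fun a _ => Finset.sum_congr rfl fun b _ => D.cm (h _ _) (h' _ _)

theorem tr_ev {X : Matrix m n Ω} {Y : Matrix n m Ω} (h : X ∈ D.M i m n) (h' : Y ∈ D.M j n m)
    (e : Even (i * j)) : trace (X * Y) = trace (Y * X) := by
  rw [tr_cm h h', Int.negOnePow_even _ e, one_smul]

theorem tr_od {X : Matrix m n Ω} {Y : Matrix n m Ω} (h : X ∈ D.M i m n) (h' : Y ∈ D.M j n m)
    (e : Odd (i * j)) : trace (X * Y) = -trace (Y * X) := by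
  rw [tr_cm h h', Int.negOnePow_odd _ e, Units.neg_smul, one_smul]

variable (D)

/-- the curvature of `d + A` -/
def cur (A : Matrix m m Ω) : Matrix m m Ω := D.dm A + A * A

/-- the projector `P` is parallel for `d + A` -/
structure Con (P A : Matrix m m Ω) : Prop where
  P0 : P ∈ D.M 0 m m
  A1 : A ∈ D.M 1 m m
  PP : P * P = P
  par : D.dm P + A * P = P * A

/-- the trace of the curvature on the image of `P` -/
def c1 (P A : Matrix m m Ω) : Ω := trace (P * D.cur A)

/-- the trace of the square of the curvature on the image of `P` -/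
def c2 (P A : Matrix m m Ω) : Ω := trace (P * (D.cur A * D.cur A))

variable {D} {P Q A B a : Matrix m m Ω}

theorem cur_mem (h : A ∈ D.M 1 m m) : D.cur A ∈ D.M 2 m m :=
  add_mem (M.dm h) (M.mul h h rfl)

theorem bianchi (h : A ∈ D.M 1 m m) : D.dm (D.cur A) = D.cur A * A - A * D.cur A := by
  rw [cur, map_add, dm_dm, dm_od h odd_one]
  noncomm_ring

theorem Con.c1_mem (h : D.Con P A) : D.c1 P A ∈ D.G 2 := M.tr (M.mul h.P0 (cur_mem h.A1) rfl)

theorem Con.c2_mem (h : D.Con P A) : D.c2 P A ∈ D.G 4 :=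
  M.tr (M.mul h.P0 (M.mul (cur_mem h.A1) (cur_mem h.A1) rfl) rfl)

theorem Con.dP (h : D.Con P A) : D.dm P = P * A - A * P := eq_sub_of_add_eq h.par

/-- a parallel map intertwines the curvatures -/
theorem cur_hom {A' : Matrix n n Ω} {ι : Matrix m n Ω} (hA : A ∈ D.M 1 m m)
    (hι : ι ∈ D.M 0 m n) (h : D.dm ι + A * ι = ι * A') : D.cur A * ι = ι * D.cur A' := by
  have h1 := congrArg D.dm h
  rw [map_add, dm_dm, zero_add, dm_od hA odd_one, dm_ev hι Even.zero, eq_sub_of_add_eq h] at h1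
  have h2 : A * A * ι + A * D.dm ι = A * (ι * A') := by
    rw [← h, Matrix.mul_add, Matrix.mul_assoc, add_comm]
  rw [eq_sub_of_add_eq h] at h2
  rw [cur, cur, Matrix.add_mul, Matrix.mul_add, eq_add_of_sub_eq h1]
  simp only [Matrix.mul_sub, Matrix.sub_mul, Matrix.mul_assoc]
  abel

theorem Con.comm (h : D.Con P A) : D.cur A * P = P * D.cur A := cur_hom h.A1 h.P0 h.par

/-- the covariant derivative of an even endomorphism has trace `d tr` -/
theorem Con.d_ev (h : D.Con P A) {X : Matrix m m Ω} (hX : X ∈ D.M i m m) (e : Even i) :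
    D.d (trace (P * X)) = trace (P * (D.dm X + A * X - X * A)) := by
  have h1 := tr_ev h.A1 (M.mul h.P0 hX (zero_add i)) (by simpa using e)
  rw [d_tr, dm_ev h.P0 Even.zero, h.dP]
  simp only [Matrix.mul_sub, Matrix.sub_mul, Matrix.mul_add, trace_add, trace_sub,
    Matrix.mul_assoc] at h1 ⊢
  rw [h1]
  abel

theorem Con.d_od (h : D.Con P A) {X : Matrix m m Ω} (hX : X ∈ D.M i m m) (e : Odd i) :
    D.d (trace (P * X)) = trace (P * (D.dm X + A * X + X * A)) := by
  have h1 := tr_od h.A1 (M.mul h.P0 hX (zero_add i)) (by simpa using e)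
  rw [d_tr, dm_ev h.P0 Even.zero, h.dP]
  simp only [Matrix.sub_mul, Matrix.mul_add, trace_add, trace_sub,
    Matrix.mul_assoc] at h1 ⊢
  rw [h1]
  abel

theorem Con.d_c1 (h : D.Con P A) : D.d (D.c1 P A) = 0 := by
  rw [c1, h.d_ev (cur_mem h.A1) even_two, bianchi h.A1]
  simp

theorem Con.d_c2 (h : D.Con P A) : D.d (D.c2 P A) = 0 := by
  rw [c2, h.d_ev (M.mul (cur_mem h.A1) (cur_mem h.A1) rfl) (by decide),
    dm_ev (cur_mem h.A1) even_two, bianchi h.A1]
  have : (D.cur A * A - A * D.cur A) * D.cur A + D.cur A * (D.cur A * A - A * D.cur A) +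
      A * (D.cur A * D.cur A) - D.cur A * D.cur A * A = 0 := by noncomm_ring
  rw [this]
  simp

theorem Con.sub_comm (h : D.Con P A) (h' : D.Con P (A + a)) : a * P = P * a := by
  have h1 := h'.par
  rw [h.dP, Matrix.add_mul, Matrix.mul_add] at h1
  have : a * P = P * A - A * P + (A * P + a * P) - P * A := by abel
  rw [this, h1]
  abel

theorem cur_add (A a : Matrix m m Ω) :
    D.cur (A + a) = D.cur A + (D.dm a + A * a + a * A) + a * a := by
  rw [cur, cur, map_add]
  noncomm_ring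

theorem tr_cyc {Y : Matrix m m Ω} (hP : P ∈ D.M 0 m m) (ha : a ∈ D.M 1 m m) (hc : a * P = P * a)
    (hY : Y ∈ D.M i m m) (e : Odd i) : trace (P * (a * Y)) = -trace (P * (Y * a)) := by
  rw [← Matrix.mul_assoc, ← hc, Matrix.mul_assoc,
    tr_od ha (M.mul hP hY (zero_add i)) (by simpa using e), Matrix.mul_assoc]

theorem eq_zero_of_eq_neg {x : Ω} (h : x = -x) : x = 0 := by
  have h2 : (2 : ℂ) • x = 0 := by rw [two_smul]; exact eq_neg_iff_add_eq_zero.1 h
  exact (smul_eq_zero.1 h2).resolve_left two_ne_zero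

theorem Con.tg1 (h : D.Con P A) (h' : D.Con P B) :
    ∃ β ∈ D.G 1, D.c1 P B - D.c1 P A = D.d β := by
  obtain ⟨a, rfl⟩ : ∃ a, B = A + a := ⟨B - A, by abel⟩
  have ha : a ∈ D.M 1 m m := by simpa using sub_mem h'.A1 h.A1
  refine ⟨trace (P * a), M.tr (M.mul h.P0 ha rfl), ?_⟩
  rw [h.d_od ha odd_one, c1, c1, cur_add, Matrix.mul_add, Matrix.mul_add, trace_add, trace_add,
    eq_zero_of_eq_neg (tr_cyc h.P0 ha (h.sub_comm h') ha odd_one)]
  abel

theorem Con.tg2 (h : D.Con P A) (h' : D.Con P B) :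
    ∃ β ∈ D.G 3, D.c2 P B - D.c2 P A = D.d β := by
  obtain ⟨a, rfl⟩ : ∃ a, B = A + a := ⟨B - A, by abel⟩
  have ha : a ∈ D.M 1 m m := by simpa using sub_mem h'.A1 h.A1
  have hc := h.sub_comm h'
  have hF := cur_mem h.A1
  obtain ⟨b, hb⟩ : ∃ b, b = D.dm a + A * a + a * A := ⟨_, rfl⟩
  have hb2 : b ∈ D.M 2 m m :=
    hb ▸ add_mem (add_mem (M.dm ha) (M.mul h.A1 ha rfl)) (M.mul ha h.A1 rfl)
  have hda : D.dm a = b - A * a - a * A := by rw [hb]; abel
  have hdA : D.dm A = D.cur A - A * A := by rw [cur]; abel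
  have hdb : D.dm b = D.cur A * a - a * D.cur A - A * b + b * A := by
    have := congrArg D.dm hb
    rw [map_add, map_add, dm_dm, dm_od h.A1 odd_one, dm_od ha odd_one, hda, hdA] at this
    rw [this]
    noncomm_ring
  have hbP : b * P = P * b := by
    have := congrArg D.dm hc
    rw [dm_od ha odd_one, dm_ev h.P0 Even.zero, hda, h.dP] at this
    have e1 : b * P - P * b = ((b - A * a - a * A) * P - a * (P * A - A * P) -
        ((P * A - A * P) * a + P * (b - A * a - a * A))) + A * (a * P - P * a) +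
        (a * P - P * a) * A := by noncomm_ring
    rw [this, hc] at e1
    simpa [sub_eq_zero] using e1
  have a2 : a * a ∈ D.M 2 m m := M.mul ha ha rfl
  have m1 : D.cur A * a ∈ D.M 3 m m := M.mul hF ha rfl
  have m2 : a * b ∈ D.M 3 m m := M.mul ha hb2 rfl
  have m3 : a * (a * a) ∈ D.M 3 m m := M.mul ha a2 rfl
  have o3 : Odd (3 : ℤ) := by decide
  have n1 : D.dm (D.cur A * a) + A * (D.cur A * a) + D.cur A * a * A = D.cur A * b := by
    rw [dm_ev hF even_two, bianchi h.A1, hda]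
    noncomm_ring
  have n2 : D.dm (a * b) + A * (a * b) + a * b * A =
      b * b - a * (D.cur A * a) + a * (a * D.cur A) := by
    rw [dm_od ha odd_one, hda, hdb]
    noncomm_ring
  have n3 : D.dm (a * (a * a)) + A * (a * (a * a)) + a * (a * a) * A =
      b * (a * a) - a * (b * a) + a * (a * b) := by
    rw [dm_od ha odd_one, dm_od ha odd_one, hda]
    noncomm_ring
  have ev : ∀ {X Y : Matrix m m Ω}, X ∈ D.M 2 m m → Y ∈ D.M 2 m m → X * P = P * X →
      trace (P * (X * Y)) = trace (P * (Y * X)) := fun {X Y} hX hY hXP => by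
    rw [← Matrix.mul_assoc, ← hXP, Matrix.mul_assoc,
      tr_ev hX (M.mul h.P0 hY (zero_add 2)) (by decide), Matrix.mul_assoc]
  have aP : a * a * P = P * (a * a) := by
    rw [Matrix.mul_assoc, hc, ← Matrix.mul_assoc, hc, Matrix.mul_assoc]
  have c1 := ev hb2 hF hbP
  have c2 := ev a2 hF aP
  have c3 := ev a2 hb2 aP
  have c4 := tr_cyc h.P0 ha hc m1 o3
  have c5 := tr_cyc h.P0 ha hc (M.mul hb2 ha rfl : b * a ∈ D.M 3 m m) o3
  have c6 := tr_cyc h.P0 ha hc m3 o3
  simp only [Matrix.mul_assoc] at c1 c2 c3 c4 c5 c6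
  replace c6 := eq_zero_of_eq_neg c6
  refine ⟨(2 : ℂ) • trace (P * (D.cur A * a)) + trace (P * (a * b)) +
    (2 / 3 : ℂ) • trace (P * (a * (a * a))), add_mem (add_mem
      (Submodule.smul_mem _ _ (M.tr (M.mul h.P0 m1 rfl))) (M.tr (M.mul h.P0 m2 rfl)))
      (Submodule.smul_mem _ _ (M.tr (M.mul h.P0 m3 rfl))), ?_⟩
  rw [map_add, map_add, map_smul, map_smul, h.d_od m1 o3, h.d_od m2 o3, h.d_od m3 o3, n1, n2, n3,
    DG.c2, DG.c2, cur_add, ← hb]
  simp only [Matrix.mul_add, Matrix.add_mul, Matrix.mul_sub, trace_add, trace_sub,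
    Matrix.mul_assoc, c1, c2, c3, c4, c5, c6]
  module

/-- equivalent projectors with a parallel equivalence have the same forms -/
theorem eqv {P' A' : Matrix n n Ω} {ι : Matrix m n Ω} {π : Matrix n m Ω} (hA : A ∈ D.M 1 m m)
    (hι : ι ∈ D.M 0 m n) (hπ : π ∈ D.M 0 n m) (h1 : ι * π = P) (h2 : π * ι = P')
    (h : D.dm ι + A * ι = ι * A') : D.c1 P' A' = D.c1 P A ∧ D.c2 P' A' = D.c2 P A := by
  have k := cur_hom hA hι h
  have hF := cur_mem hA
  subst h1 h2
  constructor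
  · rw [c1, c1, Matrix.mul_assoc, ← k, ← Matrix.mul_assoc,
      tr_ev (M.mul hπ hF rfl) hι (by simp), Matrix.mul_assoc]
  · rw [c2, c2, Matrix.mul_assoc, ← Matrix.mul_assoc ι, ← k, Matrix.mul_assoc, ← k,
      ← Matrix.mul_assoc (D.cur A), ← Matrix.mul_assoc,
      tr_ev (M.mul hπ (M.mul hF hF rfl) rfl) hι (by simp), Matrix.mul_assoc]

theorem c1_sum {κ : Type*} (s : Finset κ) (p : κ → Matrix m m Ω) (A : Matrix m m Ω) :
    D.c1 (∑ x ∈ s, p x) A = ∑ x ∈ s, D.c1 (p x) A := by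
  simp only [c1, Matrix.sum_mul, trace_sum]

theorem c2_sum {κ : Type*} (s : Finset κ) (p : κ → Matrix m m Ω) (A : Matrix m m Ω) :
    D.c2 (∑ x ∈ s, p x) A = ∑ x ∈ s, D.c2 (p x) A := by
  simp only [c2, Matrix.sum_mul, trace_sum]

/-- rank one -/
theorem Con.c2_one (h : D.Con P A) (h1 : ∀ a b c e, P a b * P c e = P a e * P c b) :
    D.c2 P A = D.c1 P A * D.c1 P A := by
  have e1 : P * (D.cur A * D.cur A) = P * D.cur A * (P * D.cur A) := by
    rw [Matrix.mul_assoc, ← Matrix.mul_assoc (D.cur A), h.comm, ← Matrix.mul_assoc,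
      ← Matrix.mul_assoc, ← Matrix.mul_assoc, h.PP]
  have cm : ∀ x y c e, D.cur A x y * P c e = P c e * D.cur A x y := fun x y c e => by
    simpa using D.cm (cur_mem h.A1 x y) (h.P0 c e)
  have cf : ∀ x y c e, D.cur A x y * D.cur A c e = D.cur A c e * D.cur A x y := fun x y c e => by
    rw [D.cm (cur_mem h.A1 x y) (cur_mem h.A1 c e), Int.negOnePow_even _ (by decide), one_smul]
  rw [c2, c1, e1]
  simp only [trace, diag, Matrix.mul_apply, Finset.sum_mul, Finset.mul_sum]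
  have l : ∀ a c b e, P a b * D.cur A b c * (P c e * D.cur A e a) =
      P a e * D.cur A e a * (P c b * D.cur A b c) := fun a c b e => by
    rw [mul_assoc, ← mul_assoc (D.cur A b c), cm, mul_assoc, ← mul_assoc, h1, cf, mul_assoc,
      mul_assoc, ← mul_assoc (D.cur A e a), cm, mul_assoc]
  simp only [l]
  rw [Finset.sum_comm]
  refine Finset.sum_congr rfl fun c _ => ?_
  rw [Finset.sum_congr rfl fun a _ => Finset.sum_comm, Finset.sum_comm]

theorem dP_eq (hP : P ∈ D.M 0 m m) (hPP : P * P = P) : D.dm P = D.dm P * P + P * D.dm P := by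
  rw [← dm_ev hP Even.zero, hPP]

theorem P_dP_P (hP : P ∈ D.M 0 m m) (hPP : P * P = P) : P * D.dm P * P = 0 := by
  have h := congrArg (P * · * P) (dP_eq hP hPP)
  simp only [Matrix.mul_add, Matrix.add_mul, ← Matrix.mul_assoc, hPP] at h
  rw [Matrix.mul_assoc (P * D.dm P), hPP] at h
  exact left_eq_add.1 h

/-- the connections for which `P` is parallel -/
theorem con_std {Θ : Matrix m m Ω} (hP : P ∈ D.M 0 m m) (hPP : P * P = P) (hΘ : Θ ∈ D.M 1 m m)
    (hc : Θ * P = P * Θ) : D.Con P (P * D.dm P - D.dm P * P + Θ) := by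
  refine ⟨hP, add_mem (sub_mem (M.mul hP (M.dm hP) rfl) (M.mul (M.dm hP) hP rfl)) hΘ, hPP, ?_⟩
  have h1 := P_dP_P hP hPP
  have h2 := dP_eq hP hPP
  simp only [Matrix.add_mul, Matrix.mul_add, Matrix.sub_mul, Matrix.mul_sub, hc, h1,
    ← Matrix.mul_assoc, hPP]
  rw [Matrix.mul_assoc (D.dm P), hPP]
  nth_rewrite 1 [h2]
  abel

/-- a connection for which all the members of an orthogonal family are parallel -/
theorem con_fam [DecidableEq m] {κ : Type} [Fintype κ] [DecidableEq κ] {p : κ → Matrix m m Ω}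
    (h0 : ∀ x, p x ∈ D.M 0 m m) (ho : ∀ x y, p x * p y = if x = y then p x else 0) :
    ∃ A, (∀ x, D.Con (p x) A) ∧ D.Con (∑ x, p x) A := by
  obtain ⟨S, hS⟩ : ∃ S, S = ∑ x, p x := ⟨_, rfl⟩
  have S0 : S ∈ D.M 0 m m := hS ▸ sum_mem fun x _ => h0 x
  have pS : ∀ y, p y * S = p y := fun y => by simp [hS, Matrix.mul_sum, ho]
  have Sp : ∀ y, S * p y = p y := fun y => by simp [hS, Matrix.sum_mul, ho]
  have A1 : ∑ x, p x * D.dm (p x) - (1 - S) * D.dm S ∈ D.M 1 m m :=
    sub_mem (sum_mem fun x _ => M.mul (h0 x) (M.dm (h0 x)) rfl)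
      (M.mul (sub_mem M.one S0) (M.dm S0) rfl)
  have key : ∀ y, D.Con (p y) (∑ x, p x * D.dm (p x) - (1 - S) * D.dm S) := fun y => by
    refine ⟨h0 y, A1, by simp [ho], ?_⟩
    have e1 : ∀ x, p x * D.dm (p x) * p y =
        (if x = y then p y * D.dm (p y) else 0) - p x * D.dm (p y) := fun x => by
      have := congrArg (p x * D.dm ·) (ho x y)
      simp only [dm_ev (h0 x) Even.zero, Matrix.mul_add, ← Matrix.mul_assoc, ho x x,
        if_true] at this
      rw [eq_sub_iff_add_eq, this]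
      split_ifs with e
      · rw [e]
      · simp
    have e2 : D.dm S * p y = D.dm (p y) - S * D.dm (p y) := by
      rw [eq_sub_iff_add_eq, ← dm_ev S0 Even.zero, Sp]
    have e3 : (1 - S) * S = 0 := by
      rw [Matrix.sub_mul, Matrix.one_mul, sub_eq_zero]
      nth_rewrite 3 [hS]
      rw [Matrix.mul_sum, hS]
      exact Finset.sum_congr rfl fun x _ => by rw [← hS, Sp]
    have e4 : p y * (1 - S) = 0 := by rw [Matrix.mul_sub, Matrix.mul_one, pS, sub_self]
    rw [Matrix.sub_mul, Matrix.sum_mul, Matrix.mul_sub, ← Matrix.mul_assoc, e4, Matrix.mul_sum,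
      Matrix.mul_assoc, e2, Matrix.mul_sub (1 - S), ← Matrix.mul_assoc, e3]
    simp only [e1, ← Matrix.mul_assoc, ho, Finset.sum_sub_distrib, Finset.sum_ite_eq',
      Finset.mem_univ, if_true, ite_mul, Finset.sum_ite_eq, ← Matrix.sum_mul, ← hS,
      Matrix.zero_mul, Matrix.sub_mul, Matrix.one_mul]
    abel
  refine ⟨_, key, hS ▸ S0, A1, ?_, ?_⟩
  · rw [Matrix.mul_sum, ← hS, hS]
    exact Finset.sum_congr rfl fun x _ => by rw [← hS, Sp]
  · rw [map_sum, Matrix.mul_sum, Matrix.sum_mul, ← Finset.sum_add_distrib]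
    exact Finset.sum_congr rfl fun x _ => (key x).par

end DG

end P275CW
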