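import Vale.Agent.P275CW.Alg2
import Vale.Agent.P275OM.Ring
import Vale.Agent.P275AR.One
import Vale.Agent.P281Z.Hm.Calc

/-!
# P275, Chern-Weil theory: germs of forms
-/

set_option linter.unusedSectionVars false

open scoped Manifold ContDiff Topology Matrix ComplexConjugate
open Filter Set
open Vale.Agent.P272.K Vale.Agent.P299.IX Vale.Agent.P299.IX.Fock
  Vale.Agent.P281Z.Hg Vale.Agent.P281Z.Hg.G1H Vale.Agent.P281Z.Hg.G2H Vale.Agent.P281Z.Hg.Pb1H
  Vale.Agent.P275MC Vale.Agent.P275KU Vale.Agent.P275OM Vale.Agent.P275OM.Fr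
open Vale.Agent.P275AR (Nb)

noncomputable section

namespace P275CW

variable {d : ℕ} {M : Type} [TopologicalSpace M] [ChartedSpace (Cm d) M] {x : M}
  {f g : M → ℂ} {u v : Fr d M}

variable (d) in
/-- forms which vanish near `x` -/
def NbI (x : M) : Ideal (Fr d M) where
  carrier := {u | sf u ∈ Nb x}
  add_mem' := (Nb x).add_mem
  zero_mem' := (Nb x).zero_mem
  smul_mem' c _ h := Vale.Agent.P275AR.op_Nb (T := wd (sf c)) (opr_vl _) h

instance : (NbI d x).IsTwoSided := ⟨fun b h => Eventually.mono h fun _ h => wd_ZP_left h (sf b)⟩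

variable (d) in
/-- germs of forms at `x` -/
def Gx (x : M) : Type := Fr d M ⧸ NbI d x

instance : Ring (Gx d x) := inferInstanceAs (Ring (Fr d M ⧸ NbI d x))

instance : Algebra ℂ (Gx d x) := inferInstanceAs (Algebra ℂ (Fr d M ⧸ NbI d x))

/-- the germ of a form -/
def gq (x : M) : Fr d M →ₐ[ℂ] Gx d x := Ideal.Quotient.mkₐ ℂ (NbI d x)

theorem gq_surj : Function.Surjective (gq (d := d) x) := Ideal.Quotient.mkₐ_surjective ℂ _

theorem gq_eq : gq x u = gq x v ↔ sf u - sf v ∈ Nb x := Ideal.Quotient.eq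

theorem gq_zero : gq x u = 0 ↔ sf u ∈ Nb x := Ideal.Quotient.eq_zero_iff_mem

theorem gq_ev (h : gq x u = gq x v) : ∀ᶠ y in 𝓝 x, gq y u = gq y v :=
  (Vale.Agent.P275AR.Nb_ev (gq_eq.1 h)).mono fun _ => gq_eq.2

theorem gq_ext (h : ∀ x, gq x u = gq x v) : u = v :=
  sub_eq_zero.1 (eq_zero_of_ZP fun x => Vale.Agent.P275AR.Nb_ZP (gq_eq.1 (h x)))

theorem gq_of_vl (h : ∀ᶠ y in 𝓝 x, ∃ e, At e y ∧ vl (sf u) e (e y) = vl (sf v) e (e y)) :
    gq x u = gq x v :=
  gq_eq.2 (h.mono fun _ ⟨_, he, h⟩ => zp _ he (by rw [vl_sub, h, sub_self]))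

variable (d) in
/-- functions which are smooth near `x` -/
def Sa (x : M) (f : M → ℂ) : Prop := ∃ g : Sm d M, g.1 =ᶠ[𝓝 x] f

namespace Sa

theorem of (h : SmC d f) (x : M) : Sa d x f := ⟨⟨f, h⟩, .rfl⟩

theorem const (c : ℂ) : Sa d x fun _ => c := of (SmC.const c) x

theorem congr (h : Sa d x f) (e : f =ᶠ[𝓝 x] g) : Sa d x g := h.imp fun _ h => h.trans e

theorem ev (h : Sa d x f) : ∀ᶠ y in 𝓝 x, Sa d y f :=
  let ⟨g, h⟩ := h; h.eventually_nhds.mono fun _ h => ⟨g, h⟩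

theorem add (hf : Sa d x f) (hg : Sa d x g) : Sa d x fun y => f y + g y :=
  let ⟨a, h⟩ := hf; let ⟨b, k⟩ := hg; ⟨a + b, h.add k⟩

theorem mul (hf : Sa d x f) (hg : Sa d x g) : Sa d x fun y => f y * g y :=
  let ⟨a, h⟩ := hf; let ⟨b, k⟩ := hg; ⟨a * b, h.mul k⟩

theorem neg (hf : Sa d x f) : Sa d x fun y => -f y := let ⟨a, h⟩ := hf; ⟨-a, h.neg⟩

theorem sub (hf : Sa d x f) (hg : Sa d x g) : Sa d x fun y => f y - g y :=
  let ⟨a, h⟩ := hf; let ⟨b, k⟩ := hg; ⟨a - b, h.sub k⟩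

theorem sum {ι : Type*} (s : Finset ι) {f : ι → M → ℂ} (h : ∀ i ∈ s, Sa d x (f i)) :
    Sa d x fun y => ∑ i ∈ s, f i y := by
  classical
  induction s using Finset.induction_on with
  | empty => exact const 0
  | insert a s ha ih =>
    simp only [Finset.sum_insert ha]
    exact (h a (by simp)).add (ih fun i hi => h i (by simp [hi]))

theorem cd (h : Sa d x f) {e : Chart d M} (he : At e x) :
    ContDiffAt ℝ ∞ (fun z => f (e.symm z)) (e x) :=
  let ⟨g, h⟩ := h; (g.2 e x he).congr_of_eventuallyEq (ev_src he h.symm)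

theorem smC (h : ∀ x, Sa d x f) : SmC d f := fun _ x he => (h x).cd he

theorem cont (h : Sa d x f) : ContinuousAt f x := by
  have h1 := (h.cd (ca x)).continuousAt.comp ((chartAt (Cm d) x).continuousAt (ca x).2)
  refine h1.congr ?_
  filter_upwards [(chartAt (Cm d) x).open_source.mem_nhds (ca x).2] with y hy
  exact congrArg f ((chartAt (Cm d) x).left_inv hy)

theorem pull {d' : ℕ} {M' : Type} [TopologicalSpace M'] [ChartedSpace (Cm d') M'] {F : M' → M}
    {y : M'} (h : Sa d (F y) f) (hF : Smo d' d F) : Sa d' y fun y => f (F y) :=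
  let ⟨g, h⟩ := h; ⟨⟨_, SmC.pull g.2 hF⟩, (hF.cont.tendsto y).eventually h⟩

/-- a function times a function which is smooth on its support -/
theorem cut {ρ : M → ℂ} (hρ : Sa d x ρ) (h : x ∈ tsupport ρ → Sa d x f) :
    Sa d x fun y => ρ y * f y := by
  by_cases hx : x ∈ tsupport ρ
  · exact hρ.mul (h hx)
  · exact (const 0).congr ((notMem_tsupport_iff_eventuallyEq.1 hx).mono fun y hy => by
      simp only [hy, Pi.zero_apply, zero_mul])

end Sa

variable (d) in
open Classical in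
/-- the germ of a function -/
def gm (x : M) (f : M → ℂ) : Gx d x := if h : Sa d x f then gq x (fnH h.choose) else 0

theorem gq_fn {a b : Sm d M} (h : a.1 =ᶠ[𝓝 x] b.1) : gq x (fnH a) = gq x (fnH b) :=
  gq_of_vl (h.mono fun y hy => ⟨_, ca y, (fn_vl a.2 (ca y)).trans
    ((congrArg (· • ev ∅) hy).trans (fn_vl b.2 (ca y)).symm)⟩)

theorem gm_eq (a : Sm d M) (h : a.1 =ᶠ[𝓝 x] f) : gm d x f = gq x (fnH a) := by
  have h1 : Sa d x f := ⟨a, h⟩
  rw [gm, dif_pos h1]
  exact gq_fn (h1.choose_spec.trans h.symm)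

theorem gm_fn (h : SmC d f) : gm d x f = gq x (of (fn h)) := gm_eq ⟨f, h⟩ .rfl

theorem gm_congr (h : f =ᶠ[𝓝 x] g) : gm d x f = gm d x g := by
  by_cases h1 : Sa d x f
  · obtain ⟨a, ha⟩ := h1
    rw [gm_eq a ha, gm_eq a (ha.trans h)]
  · rw [gm, gm, dif_neg h1, dif_neg fun h2 => h1 (h2.congr h.symm)]

theorem gm_ev (h : Sa d x f) : ∃ u : Fr d M, sf u ∈ Dg d M 0 ∧ ∀ᶠ y in 𝓝 x, gm d y f = gq y u :=
  let ⟨a, h⟩ := h; ⟨fnH a, fn_Dg a.2, h.eventually_nhds.mono fun _ h => gm_eq a h⟩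

theorem gm_add (hf : Sa d x f) (hg : Sa d x g) :
    gm d x (fun y => f y + g y) = gm d x f + gm d x g := by
  obtain ⟨a, h⟩ := hf
  obtain ⟨b, k⟩ := hg
  rw [gm_eq a h, gm_eq b k, ← map_add, ← map_add]
  exact gm_eq (a + b) (h.add k)

theorem gm_sub (hf : Sa d x f) (hg : Sa d x g) :
    gm d x (fun y => f y - g y) = gm d x f - gm d x g := by
  obtain ⟨a, h⟩ := hf
  obtain ⟨b, k⟩ := hg
  rw [gm_eq a h, gm_eq b k, ← map_sub, ← map_sub]
  exact gm_eq (a - b) (h.sub k)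

theorem gm_mul (hf : Sa d x f) (hg : Sa d x g) :
    gm d x (fun y => f y * g y) = gm d x f * gm d x g := by
  obtain ⟨a, h⟩ := hf
  obtain ⟨b, k⟩ := hg
  rw [gm_eq a h, gm_eq b k, ← map_mul, ← map_mul]
  exact gm_eq (a * b) (h.mul k)

theorem gm_const (c : ℂ) : gm d x (fun _ => c) = c • 1 := by
  rw [gm_fn (SmC.const c), fn_const, map_smul, map_smul, of_one, map_one]

theorem gm_zero : gm d x (fun _ => 0) = 0 := by rw [gm_const, zero_smul]

theorem gm_one : gm d x (fun _ => 1) = 1 := by rw [gm_const, one_smul]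

theorem gm_neg (hf : Sa d x f) : gm d x (fun y => -f y) = -gm d x f := by
  simpa only [zero_sub, gm_zero] using gm_sub (Sa.const 0) hf

theorem gm_smul (c : ℂ) (hf : Sa d x f) : gm d x (fun y => c * f y) = c • gm d x f := by
  rw [gm_mul (Sa.const c) hf, gm_const, smul_mul_assoc, one_mul]

theorem gm_sum {ι : Type*} (s : Finset ι) {f : ι → M → ℂ} (h : ∀ i ∈ s, Sa d x (f i)) :
    gm d x (fun y => ∑ i ∈ s, f i y) = ∑ i ∈ s, gm d x (f i) := by
  classical
  induction s using Finset.induction_on with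
  | empty => exact gm_zero
  | insert a s ha ih =>
    simp only [Finset.sum_insert ha]
    rw [gm_add (h a (by simp)) (Sa.sum s fun i hi => h i (by simp [hi])),
      ih fun i hi => h i (by simp [hi])]

theorem gm_off {ρ : M → ℂ} (h : x ∉ tsupport ρ) : gm d x ρ = 0 :=
  (gm_congr (notMem_tsupport_iff_eventuallyEq.1 h)).trans gm_zero

/-! ### matrices -/

section mat

variable {l m n : Type} {F G : M → Matrix m n ℂ}

variable (d) in
/-- matrices of functions which are smooth near `x` -/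
def SaM (x : M) (F : M → Matrix m n ℂ) : Prop := ∀ a b, Sa d x fun y => F y a b

variable (d) in
/-- the germ of a matrix of functions -/
def gM (x : M) (F : M → Matrix m n ℂ) : Matrix m n (Gx d x) :=
  Matrix.of fun a b => gm d x fun y => F y a b

theorem gM_apply (a : m) (b : n) : gM d x F a b = gm d x fun y => F y a b := rfl

theorem SaM.const (X : Matrix m n ℂ) : SaM d x fun _ => X := fun _ _ => Sa.const _

theorem SaM.congr (h : SaM d x F) (e : F =ᶠ[𝓝 x] G) : SaM d x G := fun a b =>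
  (h a b).congr (e.mono fun _ h => congrFun₂ h a b)

theorem SaM.ev [Finite m] [Finite n] (h : SaM d x F) : ∀ᶠ y in 𝓝 x, SaM d y F :=
  eventually_all.2 fun a => eventually_all.2 fun b => (h a b).ev

theorem SaM.add (hF : SaM d x F) (hG : SaM d x G) : SaM d x fun y => F y + G y := fun a b =>
  (hF a b).add (hG a b)

theorem SaM.sub (hF : SaM d x F) (hG : SaM d x G) : SaM d x fun y => F y - G y := fun a b =>
  (hF a b).sub (hG a b)

theorem SaM.neg (hF : SaM d x F) : SaM d x fun y => -F y := fun a b => (hF a b).neg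

theorem SaM.smul (hf : Sa d x f) (hF : SaM d x F) : SaM d x fun y => f y • F y := fun a b =>
  hf.mul (hF a b)

theorem SaM.cut {ρ : M → ℂ} (hρ : Sa d x ρ) (h : x ∈ tsupport ρ → SaM d x F) :
    SaM d x fun y => ρ y • F y := fun a b => hρ.cut fun hx => h hx a b

theorem SaM.sum {ι : Type*} (s : Finset ι) {F : ι → M → Matrix m n ℂ}
    (h : ∀ i ∈ s, SaM d x (F i)) : SaM d x fun y => ∑ i ∈ s, F i y := fun a b => by
  simp only [Matrix.sum_apply]
  exact Sa.sum s fun i hi => h i hi a b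

theorem SaM.mul [Fintype m] {E : M → Matrix l m ℂ} (hE : SaM d x E) (hF : SaM d x F) :
    SaM d x fun y => E y * F y := fun a b => Sa.sum _ fun c _ => (hE a c).mul (hF c b)

theorem SaM.tr [Fintype m] {E : M → Matrix m m ℂ} (hE : SaM d x E) :
    Sa d x fun y => (E y).trace := Sa.sum _ fun c _ => hE c c

theorem SaM.cont (h : SaM d x F) : ContinuousAt F x :=
  continuousAt_pi.2 fun a => continuousAt_pi.2 fun b => (h a b).cont

theorem SaM.pull {d' : ℕ} {M' : Type} [TopologicalSpace M'] [ChartedSpace (Cm d') M'] {φ : M' → M}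
    {y : M'} (h : SaM d (φ y) F) (hφ : Smo d' d φ) : SaM d' y fun y => F (φ y) := fun a b =>
  (h a b).pull hφ

theorem gM_congr (h : F =ᶠ[𝓝 x] G) : gM d x F = gM d x G :=
  Matrix.ext fun a b => gm_congr (h.mono fun _ h => congrFun₂ h a b)

theorem gM_add (hF : SaM d x F) (hG : SaM d x G) :
    gM d x (fun y => F y + G y) = gM d x F + gM d x G :=
  Matrix.ext fun a b => gm_add (hF a b) (hG a b)

theorem gM_sub (hF : SaM d x F) (hG : SaM d x G) :
    gM d x (fun y => F y - G y) = gM d x F - gM d x G :=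
  Matrix.ext fun a b => gm_sub (hF a b) (hG a b)

theorem gM_neg (hF : SaM d x F) : gM d x (fun y => -F y) = -gM d x F :=
  Matrix.ext fun a b => gm_neg (hF a b)

theorem gM_smul (hf : Sa d x f) (hF : SaM d x F) :
    gM d x (fun y => f y • F y) = gm d x f • gM d x F :=
  Matrix.ext fun a b => gm_mul hf (hF a b)

theorem gM_zero : gM d x (fun _ => (0 : Matrix m n ℂ)) = 0 := Matrix.ext fun _ _ => gm_zero

theorem gM_one [DecidableEq n] : gM d x (fun _ => (1 : Matrix n n ℂ)) = 1 :=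
  Matrix.ext fun a b => by
    rw [gM_apply, Matrix.one_apply, Matrix.one_apply]
    split_ifs
    exacts [gm_one, gm_zero]

theorem gM_sum {ι : Type*} (s : Finset ι) {F : ι → M → Matrix m n ℂ}
    (h : ∀ i ∈ s, SaM d x (F i)) : gM d x (fun y => ∑ i ∈ s, F i y) = ∑ i ∈ s, gM d x (F i) :=
  Matrix.ext fun a b => by
    simp only [gM_apply, Matrix.sum_apply]
    exact gm_sum s fun i hi => h i hi a b

theorem gM_mul [Fintype m] {E : M → Matrix l m ℂ} (hE : SaM d x E) (hF : SaM d x F) :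
    gM d x (fun y => E y * F y) = gM d x E * gM d x F := Matrix.ext fun a b =>
  (gm_sum _ fun c _ => (hE a c).mul (hF c b)).trans
    (Finset.sum_congr rfl fun c _ => gm_mul (hE a c) (hF c b))

theorem gM_tr [Fintype m] {E : M → Matrix m m ℂ} (hE : SaM d x E) :
    gm d x (fun y => (E y).trace) = (gM d x E).trace := gm_sum _ fun c _ => hE c c

end mat

variable [IsManifold 𝓘(ℂ, Cm d) ω M]

variable (d) in
/-- germs form a graded commutative differential algebra -/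
def dgG (x : M) : DG (Gx d x) :=
  (dgF d M).quo gq_surj fun _ h => gq_zero.2 (Vale.Agent.P275AR.dd_Nb (gq_zero.1 h))

theorem hom_gq (x : M) : (dgF d M).Hom (dgG d x) (gq x) := DG.hom_quo _ _ _

theorem d_gq (u : Fr d M) : (dgG d x).d (gq x u) = gq x (dF u) := ((hom_gq x).d u).symm

theorem gq_mem {i : ℤ} (h : sf u ∈ Dg d M i) : gq x u ∈ (dgG d x).G i := (hom_gq x).mem h

theorem gm_mem (f : M → ℂ) : gm d x f ∈ (dgG d x).G 0 := by
  rw [gm]
  split_ifs with h
  exacts [gq_mem (fn_Dg h.choose.2), zero_mem _]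

theorem gM_mem {m n : Type} (F : M → Matrix m n ℂ) : gM d x F ∈ (dgG d x).M 0 m n :=
  fun _ _ => gm_mem _

theorem d_gm_mem (f : M → ℂ) : (dgG d x).d (gm d x f) ∈ (dgG d x).G 1 := (dgG d x).dG (gm_mem f)

theorem d_gm_const (c : ℂ) : (dgG d x).d (gm d x fun _ => c) = 0 := by
  rw [gm_const, map_smul, DG.d_one, smul_zero]

theorem big {i : ℤ} (hi : (d + d : ℕ) < i) {a : Gx d x} (h : a ∈ (dgG d x).G i) : a = 0 := by
  obtain ⟨u, hu, rfl⟩ := h
  have : sf u ∈ (⊥ : Submodule ℂ (SF d M)) := Dg_big (M := M) hi ▸ hu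
  exact gq_zero.2 (by rw [(Submodule.mem_bot ℂ).1 this]; exact zero_mem _)

/-- the chain rule -/
theorem d_gm {κ : Type} [Fintype κ] {a w : κ → M → ℂ} (hf : Sa d x f) (ha : ∀ k, Sa d x (a k))
    (hw : ∀ k, Sa d x (w k)) (H : ∀ᶠ y in 𝓝 x, ∃ e : Chart d M, At e y ∧ ∀ v,
      fderiv ℝ (fun z => f (e.symm z)) (e y) v =
        ∑ k, a k y * fderiv ℝ (fun z => w k (e.symm z)) (e y) v) :
    (dgG d x).d (gm d x f) = ∑ k, gm d x (a k) * (dgG d x).d (gm d x (w k)) := by
  obtain ⟨f', h1⟩ := hf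
  choose a' h2 using ha
  choose w' h3 using hw
  simp only [gm_eq _ h1, gm_eq _ (h2 _), gm_eq _ (h3 _), d_gq, ← map_mul, ← map_sum]
  refine gq_of_vl ?_
  filter_upwards [H, h1.eventually_nhds, eventually_all.2 h2,
    eventually_all.2 fun k => (h3 k).eventually_nhds] with y ⟨e, he, H⟩ k1 k2 k3
  refine ⟨e, he, ?_⟩
  have k4 : ∀ a : Sm d M, vl (dd d M (sf (fnH a))) e (e y) = _ := fun a => dd_fn_vl a.2 he
  have k5 : ∀ (a : Sm d M) u, vl (wd (sf (fnH a)) u) e (e y) = _ := fun a u => wd_fn_vl a.2 u he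
  simp only [map_sum, vl_sum, sf_mul, sf_dF, k4, k5,
    ← Matrix.smul_mulVec, ← epsV_smul, ← Matrix.sum_mulVec]
  congr 1
  have e1 : ∀ c, dr c (fun z => f'.1 (e.symm z)) (e y) =
      ∑ k, (a' k).1 y * dr c (fun z => (w' k).1 (e.symm z)) (e y) := fun c => by
    obtain ⟨p, q, v, v', h4, -⟩ := Po1.rep c
    rw [dr_congr c (ev_src he k1), h4, H, H, Finset.mul_sum, Finset.mul_sum,
      ← Finset.sum_add_distrib]
    refine Finset.sum_congr rfl fun k _ => ?_
    rw [dr_congr c (ev_src he (k3 k)), h4, k2 k]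
    ring
  simp only [e1, epsV, Finset.sum_smul, Pi.smul_apply, smul_eq_mul]
  exact Finset.sum_comm

section pull

variable {d' : ℕ} {M' : Type} [TopologicalSpace M'] [ChartedSpace (Cm d') M']
  [IsManifold 𝓘(ℂ, Cm d') ω M'] {φ : M' → M}

/-- the pull-back of germs -/
def pbg (hφ : Smo d' d φ) (y : M') : Gx d (φ y) →ₐ[ℂ] Gx d' y :=
  Ideal.Quotient.liftₐ (NbI d (φ y)) ((gq y).comp (pbH hφ)) fun _ h =>
    gq_zero.2 (Vale.Agent.P275AR.pb_Nb hφ h)

theorem pbg_gq (hφ : Smo d' d φ) (y : M') (u : Fr d M) :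
    pbg hφ y (gq (φ y) u) = gq y (pbH hφ u) := rfl

theorem hom_pbH (hφ : Smo d' d φ) : (dgF d M).Hom (dgF d' M') (pbH hφ) :=
  ⟨pb_Dg hφ, pbH_d hφ⟩

theorem hom_pbg (hφ : Smo d' d φ) (y : M') : (dgG d (φ y)).Hom (dgG d' y) (pbg hφ y) :=
  ⟨by
    rintro i _ ⟨u, hu, rfl⟩
    exact gq_mem (pb_Dg hφ hu), fun a => by
    obtain ⟨u, rfl⟩ := gq_surj a
    rw [d_gq, pbg_gq, pbg_gq, d_gq, pbH_d]⟩

theorem pbg_gm (hφ : Smo d' d φ) {y : M'} (h : Sa d (φ y) f) :
    pbg hφ y (gm d (φ y) f) = gm d' y fun y => f (φ y) := by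
  obtain ⟨a, h⟩ := h
  rw [gm_eq a h, pbg_gq, pbH_fn, gm_eq (pbS hφ a) ((hφ.cont.tendsto y).eventually h)]

theorem pbg_gM (hφ : Smo d' d φ) {y : M'} {m n : Type} {F : M → Matrix m n ℂ}
    (h : SaM d (φ y) F) : (gM d (φ y) F).map (pbg hφ y) = gM d' y fun y => F (φ y) :=
  Matrix.ext fun a b => pbg_gm hφ (h a b)

end pull

variable [T2Space M]

/-- the criterion for smoothness near a point -/
theorem sa_of (h : ∀ᶠ y in 𝓝 x, ∀ e : Chart d M, At e y →
    ContDiffAt ℝ ∞ (fun z => f (e.symm z)) (e y)) :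
    Sa d x f := by
  obtain ⟨χ, h1, -, h3, -, -, h4⟩ := ex_bump (d := d) h
  refine ⟨⟨fun y => χ y * f y, fun e y he => ?_⟩, h4.mono fun y hy => by simp [hy]⟩
  by_cases hy : y ∈ tsupport χ
  · exact (SmC.of_real h1 e y he).mul (h3 hy e he)
  · exact (contDiffAt_const (c := 0)).congr_of_eventuallyEq ((ev_src he
      (notMem_tsupport_iff_eventuallyEq.1 hy)).mono fun z hz => by simp [show χ _ = 0 from hz])

theorem Sa.comp {φ : ℂ → ℂ} (hf : Sa d x f) (h : ∀ᶠ z in 𝓝 (f x), ContDiffAt ℝ ∞ φ z) :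
    Sa d x fun y => φ (f y) := sa_of (by
  filter_upwards [hf.ev, hf.cont.eventually h] with y h1 h2 e he
  exact ContDiffAt.comp (g := φ) _ (by rwa [e.left_inv he.2]) (h1.cd he))

theorem Sa.inv (hf : Sa d x f) (h : f x ≠ 0) : Sa d x fun y => (f y)⁻¹ :=
  hf.comp (φ := fun z => z⁻¹) ((isOpen_ne.eventually_mem h).mono fun _ hz => contDiffAt_inv ℝ hz)

theorem Sa.conj (hf : Sa d x f) : Sa d x fun y => conj (f y) :=
  hf.comp (φ := fun z => Complex.conjCLE z) (.of_forall fun _ => Complex.conjCLE.contDiff.contDiffAt)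

open Vale.Agent.P281Z.Hm in
/-- the chain rule for a function of one complex variable -/
theorem d_gm_comp {φ : ℂ → ℂ} (hf : Sa d x f) (h : ∀ᶠ z in 𝓝 (f x), ContDiffAt ℝ ∞ φ z)
    (h1 : Sa d x fun y => Vale.Agent.P281Z.Hm.wd 1 φ (f y)) (h2 : Sa d x fun y => wb 1 φ (f y)) :
    (dgG d x).d (gm d x fun y => φ (f y)) =
      gm d x (fun y => Vale.Agent.P281Z.Hm.wd 1 φ (f y)) * (dgG d x).d (gm d x f) +
      gm d x (fun y => wb 1 φ (f y)) * (dgG d x).d (gm d x fun y => conj (f y)) := by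
  rw [d_gm (a := ![fun y => Vale.Agent.P281Z.Hm.wd 1 φ (f y), fun y => wb 1 φ (f y)])
    (w := ![f, fun y => conj (f y)]) (hf.comp h) (fun k => by fin_cases k; exacts [h1, h2])
    (fun k => by fin_cases k; exacts [hf, hf.conj]) ?_, Fin.sum_univ_two]
  · rfl
  filter_upwards [hf.ev, hf.cont.eventually h] with y k1 k2
  refine ⟨_, ca y, fun v => ?_⟩
  have k3 := ((k1.cd (ca y)).differentiableAt (by simp)).hasFDerivAt
  have k4 := (k2.differentiableAt (by simp)).hasFDerivAt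
  have k5 := HasFDerivAt.comp (g := φ) _ (by rwa [(chartAt (Cm d) y).left_inv (ca y).2]) k3
  have k6 := Complex.conjCLE.hasFDerivAt.comp _ k3
  rw [Fin.sum_univ_two]
  refine (congrArg (· v) k5.fderiv).trans (Eq.trans ?_ (congrArg
    (fun L => _ * _ + _ * L v) k6.fderiv).symm)
  change fderiv ℝ φ (f y) (fderiv ℝ (fun z => f ((chartAt (Cm d) y).symm z)) _ v) = _ * _ + _ * conj _
  rw [fderiv_eq_wd, ← mul_one (fderiv ℝ (fun z => f ((chartAt (Cm d) y).symm z)) _ v),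
    ← smul_eq_mul, wd_smulv, wb_smulv]
  simp [mul_comm]

end P275CW
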