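import Vale.Agent.P275MK.Glue
import Vale.Agent.P275KU.Fn
import Vale.Agent.P275MC.Int
import Vale.Agent.P275GC.Int

/-!
P275 (helper25): a curve with a disc atlas as a manifold; functions, forms, the integral.
-/

set_option linter.all false

open scoped Manifold ContDiff Topology Matrix ComplexConjugate
open Filter Set Metric MeasureTheory
open Vale.Agent.P272.K Vale.Agent.P299.IX Vale.Agent.P299.IX.Fock
  Vale.Agent.P281Z.Hg Vale.Agent.P281Z.Hg.G1H Vale.Agent.P281Z.Hg.G2H Vale.Agent.P281Z.Hg.Pb1H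
  Vale.Agent.P275MC Vale.Agent.P275KU Vale.Agent.P275MK
open Vale.Agent.P275GC.At

noncomputable section

namespace Vale.Agent.P275CW

/-! ### the model space -/

theorem c1_zero (v : Cm 1) : c1 (v 0) = v := c1.apply_symm_apply v

theorem cd_c1 {E : Type} [NormedAddCommGroup E] [NormedSpace ℝ E] {f : ℂ → E} {z : ℂ}
    {k : WithTop ℕ∞} : ContDiffAt ℝ k (fun v : Cm 1 => f (v 0)) (c1 z) ↔ ContDiffAt ℝ k f z :=
  ⟨fun h => h.comp z (c1.toContinuousLinearMap.restrictScalars ℝ).contDiff.contDiffAt,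
    fun h => ContDiffAt.comp (g := f) (c1 z) h (contDiff_apply ℝ ℂ 0).contDiffAt⟩

theorem fd_c1 (f : ℂ → ℂ) (z a : ℂ) :
    fderiv ℝ (fun v : Cm 1 => f (v 0)) (c1 z) (Pi.single 0 a) = fderiv ℝ f z a := by
  have h := ((ContinuousLinearEquiv.funUnique (Fin 1) ℝ ℂ).comp_right_fderiv (f := f) (x := c1 z))
  exact (congrArg (· (Pi.single 0 a)) h).trans (congrArg (fderiv ℝ f z)
    (Pi.single_eq_same (M := fun _ : Fin 1 => ℂ) 0 a))

theorem dr_hl (f : ℂ → ℂ) (z : ℂ) :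
    dr (hl 0) (fun v : Cm 1 => f (v 0)) (c1 z) = P281Z.Hm.wd 1 f z := by
  rw [Ka.dr_hl, dz, fd_c1, fd_c1, P281Z.Hm.wd]
  simp only [smul_eq_mul, mul_one]
  ring

theorem dr_ah (f : ℂ → ℂ) (z : ℂ) :
    dr (ah 0) (fun v : Cm 1 => f (v 0)) (c1 z) = P281Z.Hm.wb 1 f z := by
  rw [Ka.dr_ah, dzb, fd_c1, fd_c1, P281Z.Hm.wb]
  simp only [smul_eq_mul, mul_one]
  ring

theorem int_c1 (G : ℂ → ℂ) : ∫ v : Cm 1, G (v 0) = ∫ z, G z :=
  (volume_preserving_funUnique (Fin 1) ℂ).integral_comp' G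

theorem top_eq : (eps (hl 0) * eps (ah 0)) *ᵥ ev ∅ = (ev Finset.univ : Fo 1) := by
  rw [← Matrix.mulVec_mulVec, eps_ev_min (l := ah 0) (I := ∅) (by simp),
    eps_ev_min (l := hl 0) (by decide)]
  exact congrArg ev (by decide)

/-- the Jacobian matrix of a holomorphic map with derivative `c` -/
def J1 (c : ℂ) : Matrix (Fin (1 + 1)) (Fin (1 + 1)) ℂ := Matrix.diagonal (cx (c1 c))

theorem J1_top (c : ℂ) : lam (J1 c) *ᵥ ev Finset.univ = Complex.normSq c • ev Finset.univ := by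
  rw [J1, lam_diagonal_ev, Fin.prod_univ_two, ← Complex.coe_smul, ← Complex.mul_conj]
  rfl

theorem J1_hl (c : ℂ) : lam (J1 c) *ᵥ ev {hl 0} = c • ev {hl 0} := by
  rw [J1, lam_diagonal_ev, Finset.prod_singleton, Ka.cx_hl, c1_apply]

theorem J1_ah (c : ℂ) : lam (J1 c) *ᵥ ev {ah 0} = conj c • ev {ah 0} := by
  rw [J1, lam_diagonal_ev, Finset.prod_singleton, Ka.cx_ah, c1_apply]
  rfl

theorem J1_apply (c : ℂ) (u : Fo 1) (I : FI (1 + 1)) :
    (lam (J1 c) *ᵥ u) I = (∏ l ∈ I, cx (c1 c) l) * u I := by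
  conv_lhs => rw [pi_eq_sum_univ' u, Matrix.mulVec_sum, Finset.sum_apply]
  rw [Finset.sum_eq_single I (fun K _ h => ?_) fun h => (h (Finset.mem_univ _)).elim]
  · have := congrFun (lam_diagonal_ev (cx (c1 c)) I) I
    rw [Matrix.mulVec_smul, Pi.smul_apply, smul_eq_mul, mul_comm]
    exact congrArg (· * u I) (this.trans (by simp [ev]))
  · have := congrFun (lam_diagonal_ev (cx (c1 c)) K) I
    rw [Matrix.mulVec_smul, Pi.smul_apply, smul_eq_mul]
    exact mul_eq_zero_of_right _ (this.trans (by simp [ev, h.symm]))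

theorem eps_hl : eps (hl 0) *ᵥ ev ∅ = (ev {hl 0} : Fo 1) := eps_ev_min (by simp)

theorem eps_ah : eps (ah 0) *ᵥ ev ∅ = (ev {ah 0} : Fo 1) := eps_ev_min (by simp)

theorem hd_ev {n : ℕ} (I : FI n) : HD I.card (ev I) := fun K h =>
  Pi.single_eq_of_ne (fun e => h (by rw [e])) _

/-! ### the charts -/

variable {C : Type} [TopologicalSpace C] (A : P275GC.At C) {i j : Fin A.N} {x : C} {v : Cm 1}
  {z : ℂ}

/-- the chart `i` with values in `Cm 1` -/
def ch (i : Fin A.N) : Chart 1 C := A.e i ≫ₕ c1.toHomeomorph.toOpenPartialHomeomorph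

include A in
/-- second countability -/
theorem sc : SecondCountableTopology C :=
  letI := csA A
  haveI := A.compactSpace
  ChartedSpace.secondCountable_of_sigmaCompact (Cm 1) C

/-- the atlas consists of the charts of `A` -/
def IsA [ChartedSpace (Cm 1) C] : Prop := atlas (Cm 1) C = range (ch A)

theorem isA : @IsA C _ A (csA A) := Set.ext fun E =>
  ⟨fun ⟨i, e, a, b⟩ => ⟨i, by
      rw [b, chartedSpaceSelf_atlas.1 a, OpenPartialHomeomorph.trans_refl]; rfl⟩,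
    fun ⟨i, a⟩ => ⟨i, _, chartedSpaceSelf_atlas.2 rfl,
      a.symm.trans (OpenPartialHomeomorph.trans_refl _).symm⟩⟩

variable {A}

theorem ch_apply (i : Fin A.N) (x : C) : ch A i x = c1 (A.e i x) := rfl

theorem ch_symm (i : Fin A.N) (v : Cm 1) : (ch A i).symm v = (A.e i).symm (v 0) := rfl

theorem ch_src : x ∈ (ch A i).source ↔ x ∈ (A.e i).source := and_iff_left trivial

theorem ch_tgt : v ∈ (ch A i).target ↔ v 0 ∈ ball (0 : ℂ) A.R :=
  (and_iff_right trivial).trans mem_tgt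

theorem jt_ch (h : z ∈ A.O i j) : jt (ch A i) (ch A j) ((A.e i).symm z) = J1 (A.d i j z) := by
  have a : DifferentiableAt ℂ (fun v : Cm 1 => c1 (A.tr i j (v 0))) (c1 z) :=
    c1.differentiableAt.comp _ (DifferentiableAt.comp (g := A.tr i j) (c1 z) (df_tr h)
      (differentiableAt_apply 0 _))
  have b : dz 0 (fun v : Cm 1 => A.tr i j (v 0)) (c1 z) = A.d i j z := by
    rw [← Ka.dr_hl, dr_hl, P281Z.Hm.wd, (has_tr h).complexToReal_fderiv.fderiv]
    simp only [smul_eq_mul, mul_one, ContinuousLinearMap.smul_apply,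
      ContinuousLinearMap.one_apply]
    linear_combination (-2⁻¹ * A.d i j z) * Complex.I_mul_I
  rw [jt, ch_apply, rinv h.1]
  refine (k1b'.jc_hol a).trans (Matrix.ext fun p q => ?_)
  induction p using Fin.addCases <;> induction q using Fin.addCases <;> rename_i p q <;>
    obtain rfl := Subsingleton.elim p 0 <;> obtain rfl := Subsingleton.elim q 0
  · exact (F1bH.blk_hh _ _ _ _).trans b
  · exact F1bH.blk_ha _ _ _ _
  · exact F1bH.blk_ah _ _ _ _
  · exact (F1bH.blk_aa _ _ _ _).trans (congrArg star b)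

variable [ChartedSpace (Cm 1) C]

theorem IsA.mem (hA : IsA A) (i : Fin A.N) : ch A i ∈ atlas (Cm 1) C := hA ▸ mem_range_self i

theorem IsA.at (hA : IsA A) (h : x ∈ (A.e i).source) : At (ch A i) x := ⟨hA.mem i, ch_src.2 h⟩

theorem IsA.ex (hA : IsA A) {e : Chart 1 C} (h : At e x) :
    ∃ i, e = ch A i ∧ x ∈ (A.e i).source := by
  obtain ⟨i, rfl⟩ := hA ▸ h.1
  exact ⟨i, rfl, ch_src.1 h.2⟩

theorem IsA.mf (hA : IsA A) : IsManifold 𝓘(ℂ, Cm 1) ω C := by
  refine isManifold_of_contDiffOn 𝓘(ℂ, Cm 1) ω C fun e e' a b w hw => ?_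
  obtain ⟨i, rfl⟩ := hA ▸ a
  obtain ⟨j, rfl⟩ := hA ▸ b
  have hw' : w ∈ ((ch A i).symm ≫ₕ ch A j).source := by simpa using hw.1
  have o : w 0 ∈ A.O i j := ⟨ch_tgt.1 hw'.1, ch_src.1 hw'.2⟩
  exact ((c1.analyticAt _).comp (AnalyticAt.comp (g := A.tr i j) (f := c1.symm) (an_tr o)
    (c1.symm.analyticAt w))).contDiffAt.contDiffWithinAt

/-! ### functions -/

section fn

variable {E : Type} [NormedAddCommGroup E] [NormedSpace ℝ E] {f : C → E} {k : WithTop ℕ∞}

theorem smAt_iff (hA : IsA A) (hx : x ∈ (A.e i).source) :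
    (∀ e : Chart 1 C, At e x → ContDiffAt ℝ k (fun v => f (e.symm v)) (e x)) ↔
      ContDiffAt ℝ k (A.pl f i) (A.e i x) := by
  refine ⟨fun h => cd_c1.1 (h _ (hA.at hx)), fun h e he => ?_⟩
  obtain ⟨j, rfl, hj⟩ := hA.ex he
  have o := mem_O hj hx
  refine (cd_c1 (f := A.pl f j) (z := A.e j x)).2 (ContDiffAt.congr_of_eventuallyEq (f := A.pl f i ∘ A.tr j i)
    (ContDiffAt.comp (A.e j x) (by rwa [tr_e hj]) ((an_tr o).contDiffAt.restrict_scalars ℝ)) ?_)
  filter_upwards [O_nhds o] with w a using fn_pl f j i w a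

theorem sm_iff (hA : IsA A) :
    (∀ (e : Chart 1 C) x, At e x → ContDiffAt ℝ k (fun v => f (e.symm v)) (e x)) ↔ A.Sm k (A.pl f) := by
  refine ⟨fun h i z a => ?_, fun h e x he => ?_⟩
  · have := (smAt_iff hA (map_tgt (i := i) a)).1 (h · _)
    rw [rinv a] at this
    exact this.contDiffWithinAt
  · obtain ⟨j, -, hj⟩ := hA.ex he
    exact (smAt_iff hA hj).2 (h.at (map_src hj) j) e he

theorem smC_iff (hA : IsA A) {f : C → ℂ} : SmC 1 f ↔ A.Sm ∞ (A.pl f) := sm_iff hA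

theorem smR_iff (hA : IsA A) {f : C → ℝ} : SmoothFn (n := 1) f ↔ A.Sm ∞ (A.pl f) := sm_iff hA

theorem sm_ψ [T2Space C] (hA : IsA A) (i : Fin A.N) : SmoothFn (n := 1) (A.ψ i) :=
  (smR_iff hA).2 (sm_φ i)

end fn

/-! ### forms -/

/-- the coefficients of a form -/
def cf (A : P275GC.At C) (a : SF 1 C) (i : Fin A.N) (z : ℂ) : Fo 1 := vl a (ch A i) (c1 z)

theorem cf_e (a : SF 1 C) (i : Fin A.N) (x : C) : cf A a i (A.e i x) = vl a (ch A i) (ch A i x) :=
  rfl

theorem vl_cf (a : SF 1 C) (i : Fin A.N) (v : Cm 1) : vl a (ch A i) v = cf A a i (v 0) := by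
  rw [cf, c1_zero]

theorem cf_ext (hA : IsA A) {a b : SF 1 C}
    (h : ∀ i, ∀ z ∈ ball (0 : ℂ) A.R, cf A a i z = cf A b i z) : a = b := ext' fun e x he => by
  obtain ⟨i, rfl, hi⟩ := hA.ex he
  exact h i _ (map_src hi)

theorem cf_sm (hA : IsA A) (a : SF 1 C) : A.Sm ∞ (cf A a) := fun i z h => by
  have := (vl_isF a).sm _ _ (hA.at (map_tgt (i := i) h))
  rw [ch_apply, rinv h, funext (vl_cf a i)] at this
  exact (cd_c1.1 this).contDiffWithinAt

theorem cf_tr (hA : IsA A) (a : SF 1 C) (h : z ∈ A.O i j) :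
    cf A a i z = lam (J1 (A.d i j z)) *ᵥ cf A a j (A.tr i j z) := by
  have := (vl_isF a).ch _ _ _ (hA.at (map_tgt h.1)) (hA.at h.2)
  rwa [jt_ch h, ch_apply, rinv h.1] at this

theorem cf_dn (hA : IsA A) (a : SF 1 C) : A.Dn fun i z => cf A a i z Finset.univ :=
  fun i j z h => by
    beta_reduce
    rw [cf_tr hA a h, J1_apply, Fin.prod_univ_two, ← Complex.coe_smul, ← Complex.mul_conj]
    rfl

theorem cf_f10 (hA : IsA A) (a : SF 1 C) : A.F10 fun i z => cf A a i z {hl 0} := fun i j z h => by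
  beta_reduce
  rw [cf_tr hA a h, J1_apply, Finset.prod_singleton, Ka.cx_hl]
  rfl

theorem cf_f01 (hA : IsA A) (a : SF 1 C) : A.F01 fun i z => cf A a i z {ah 0} := fun i j z h => by
  beta_reduce
  rw [cf_tr hA a h, J1_apply, Finset.prod_singleton, Ka.cx_ah]
  rfl

theorem ex_form (hA : IsA A) {w : Fin A.N → ℂ → Fo 1} (h1 : A.Sm ∞ w)
    (h2 : ∀ i j, ∀ z ∈ A.O i j, w i z = lam (J1 (A.d i j z)) *ᵥ w j (A.tr i j z)) :
    ∃ a : SF 1 C, ∀ i, ∀ z ∈ ball (0 : ℂ) A.R, cf A a i z = w i z := by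
  classical
  have law : ∀ i j x, x ∈ (A.e i).source → x ∈ (A.e j).source →
      w i (A.e i x) = lam (jt (ch A i) (ch A j) x) *ᵥ w j (A.e j x) := fun i j x a b => by
    have := jt_ch (mem_O a b)
    rw [(A.e i).left_inv a] at this
    rw [this, h2 i j _ (mem_O a b), tr_e a]
  haveI := hA.mf
  obtain ⟨a, ha⟩ := mkf (d := 1) (M := C)
    (fun e v => if h : ∃ i, e = ch A i then w h.choose (v 0) else 0) (fun e x he => by
      have h : ∃ i, e = ch A i := (hA.ex he).imp fun _ a => a.1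
      simp only [dif_pos h]
      have b := he.2
      rw [h.choose_spec] at b
      rw [congrArg (· x) h.choose_spec]
      exact cd_c1.2 (h1.at (map_src (ch_src.1 b)) _)) fun e e' x he he' => by
      have h : ∃ i, e = ch A i := (hA.ex he).imp fun _ a => a.1
      have h' : ∃ i, e' = ch A i := (hA.ex he').imp fun _ a => a.1
      simp only [dif_pos h, dif_pos h']
      have b := he.2
      have b' := he'.2
      rw [h.choose_spec] at b
      rw [h'.choose_spec] at b'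
      rw [congrArg (· x) h.choose_spec, congrArg (· x) h'.choose_spec,
        congrArg₂ (jt · · x) h.choose_spec h'.choose_spec]
      exact law _ _ x (ch_src.1 b) (ch_src.1 b')
  refine ⟨a, fun i z hz => ?_⟩
  have h : ∃ j, ch A i = ch A j := ⟨i, rfl⟩
  have b := hA.at (map_tgt (i := i) hz)
  have c := law i h.choose _ (map_tgt hz) (ch_src.1 (h.choose_spec ▸ b.2))
  have e : A.e h.choose ((A.e i).symm z) = z :=
    (congrArg (fun e : Chart 1 C => e ((A.e i).symm z) 0) h.choose_spec).symm.trans (rinv hz)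
  rw [← h.choose_spec, jt_self k1b' b, lam_one, Matrix.one_mulVec, rinv hz, e] at c
  rw [cf, ha _ (hA.mem i) _ (ch_tgt.2 hz), dif_pos h, c]
  rfl

theorem dg_of_cf (hA : IsA A) {a : SF 1 C} {k : ℤ}
    (h : ∀ i, ∀ z ∈ ball (0 : ℂ) A.R, HD k (cf A a i z)) : a ∈ Dg 1 C k := mem_Dg.2 fun e x he => by
  obtain ⟨i, rfl, hi⟩ := hA.ex he
  exact h i _ (map_src hi)

section om

variable {u : Fin A.N → ℂ → ℂ} (hA : IsA A) (hs : A.Sm ∞ u)
include hA hs

theorem ex_om (hu : A.Dn u) :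
    ∃ a : SF 1 C, ∀ i, ∀ z ∈ ball (0 : ℂ) A.R, cf A a i z = u i z • ev Finset.univ :=
  ex_form hA (fun i => (hs i).smul contDiffOn_const) fun i j z h => by
    rw [Matrix.mulVec_smul, J1_top, hu i j z h, smul_comm, smul_assoc]

/-- the `2`-form `u dz ∧ dz̄` of a density -/
def om (hu : A.Dn u) : SF 1 C := (ex_om hA hs hu).choose

theorem cf_om (hu : A.Dn u) (i : Fin A.N) (h : z ∈ ball (0 : ℂ) A.R) :
    cf A (om hA hs hu) i z = u i z • ev Finset.univ := (ex_om hA hs hu).choose_spec i z h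

theorem vl_om (hu : A.Dn u) (h : v ∈ (ch A i).target) :
    vl (om hA hs hu) (ch A i) v = u i (v 0) • (eps (hl 0) * eps (ah 0)) *ᵥ ev ∅ := by
  rw [vl_cf, cf_om hA hs hu i (ch_tgt.1 h), top_eq]

theorem om_Dg (hu : A.Dn u) : om hA hs hu ∈ Dg 1 C 2 := dg_of_cf hA fun i z h => by
  rw [cf_om hA hs hu i h]
  exact (hd_ev Finset.univ).smul _

theorem ex_o10 (hu : A.F10 u) :
    ∃ a : SF 1 C, ∀ i, ∀ z ∈ ball (0 : ℂ) A.R, cf A a i z = u i z • ev {hl 0} :=
  ex_form hA (fun i => (hs i).smul contDiffOn_const) fun i j z h => by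
    rw [Matrix.mulVec_smul, J1_hl, hu i j z h, smul_comm, smul_assoc]

theorem ex_o01 (hu : A.F01 u) :
    ∃ a : SF 1 C, ∀ i, ∀ z ∈ ball (0 : ℂ) A.R, cf A a i z = u i z • ev {ah 0} :=
  ex_form hA (fun i => (hs i).smul contDiffOn_const) fun i j z h => by
    rw [Matrix.mulVec_smul, J1_ah, hu i j z h, smul_comm, smul_assoc]

end om

variable [IsManifold 𝓘(ℂ, Cm 1) ω C] [T2Space C]

/-- **the integral of a form is the integral of its density** -/
theorem itc_eq (hA : IsA A) (a : SF 1 C) : itc 1 C a = A.int fun i z => cf A a i z Finset.univ := by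
  have e : a = ∑ i, mu (sm_ψ hA i) a := ext' fun e x he => by
    simp only [vl_sum, mu_vl _ _ he, ← Finset.sum_smul, ← Complex.ofReal_sum, sum_ψ,
      Complex.ofReal_one, one_smul]
  conv_lhs => rw [e, map_sum]
  refine Finset.sum_congr rfl fun i _ => ?_
  have m : mu (sm_ψ hA i) a ∈ Ac 1 (ch A i).source :=
    ⟨_, cpt_img (isCompact_closedBall 0 1) A.unit_sub i, by
      rintro _ ⟨z, hz, rfl⟩
      exact ch_src.2 (map_tgt (A.unit_sub hz)), fun x hx => mu_ZP _ _ (ext_off (fun _ _ a =>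
        χ_zero (not_le.1 fun b => a (mem_closedBall_zero_iff.2 b)).le) hx)⟩
  rw [itc_chart (hA.mem i) m, ← int_c1]
  refine int_congr (hA.mem i) (fun x hx => ?_) fun v hv => ?_
  · rw [mu_vl _ _ hx, Pi.smul_apply, Complex.coe_smul, P275GC.At.ψ, ext_src (ch_src.1 hx.2)]
    rfl
  · rw [(vl_isF _).off _ _ fun h => hv h.2, χ_zero (A.hR.le.trans (not_lt.1 fun h =>
      hv (ch_tgt.2 (mem_ball_zero_iff.2 h)))), zero_smul]
    rfl

theorem itc_om {u : Fin A.N → ℂ → ℂ} (hA : IsA A) (hs : A.Sm ∞ u) (hu : A.Dn u) :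
    itc 1 C (om hA hs hu) = A.int u :=
  (itc_eq hA _).trans (int_congr' fun i z h => by rw [cf_om hA hs hu i h]; simp [ev])

end Vale.Agent.P275CW
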