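import Vale.Agent.P275CW.Alg
import Mathlib.LinearAlgebra.Basis.VectorSpace
import Mathlib.Algebra.Module.Projective
import Mathlib.Algebra.BigOperators.Fin

/-! Chern-Weil algebra: morphisms, quotients, the canonical connection of an idempotent. -/

set_option linter.unusedSectionVars false

open Matrix

noncomputable section

namespace P275CW

variable {Ω Ω' : Type} [Ring Ω] [Algebra ℂ Ω] [Ring Ω'] [Algebra ℂ Ω'] {l m n : Type}

namespace DG

/-- morphisms -/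
structure Hom (D : DG Ω) (D' : DG Ω') (f : Ω →ₐ[ℂ] Ω') : Prop where
  mem : ∀ {i : ℤ} {a : Ω}, a ∈ D.G i → f a ∈ D'.G i
  d : ∀ a, f (D.d a) = D'.d (f a)

variable {D : DG Ω} {D' : DG Ω'} {f : Ω →ₐ[ℂ] Ω'} {i : ℤ}

theorem ex_quo (D : DG Ω) (hf : Function.Surjective f) (h : ∀ a, f a = 0 → f (D.d a) = 0) :
    ∃ δ : Ω' →ₗ[ℂ] Ω', ∀ a, δ (f a) = f (D.d a) := by
  obtain ⟨g, hg⟩ := f.toLinearMap.exists_rightInverse_of_surjective (LinearMap.range_eq_top.2 hf)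
  refine ⟨f.toLinearMap ∘ₗ D.d ∘ₗ g, fun a => ?_⟩
  have h1 := h (g (f a) - a) (by
    rw [map_sub, show f (g (f a)) = f a from LinearMap.congr_fun hg (f a), sub_self])
  rwa [map_sub, map_sub, sub_eq_zero] at h1

/-- the quotient by a differential ideal -/
def quo (D : DG Ω) (hf : Function.Surjective f) (h : ∀ a, f a = 0 → f (D.d a) = 0) : DG Ω' where
  G i := (D.G i).map f.toLinearMap
  d := (D.ex_quo hf h).choose
  one := ⟨1, D.one, map_one f⟩
  mul := by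
    rintro i j _ _ ⟨a, ha, rfl⟩ ⟨b, hb, rfl⟩
    exact ⟨a * b, D.mul ha hb, map_mul f a b⟩
  dG := by
    rintro i _ ⟨a, ha, rfl⟩
    exact ⟨_, D.dG ha, ((D.ex_quo hf h).choose_spec a).symm⟩
  dd a := by
    obtain ⟨a, rfl⟩ := hf a
    rw [(D.ex_quo hf h).choose_spec, (D.ex_quo hf h).choose_spec, D.dd, map_zero]
  lb := by
    rintro i _ b ⟨a, ha, rfl⟩
    obtain ⟨b, rfl⟩ := hf b
    simp only [AlgHom.toLinearMap_apply, ← map_mul, (D.ex_quo hf h).choose_spec, D.lb b ha,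
      map_add, Units.smul_def, map_zsmul]
  cm := by
    rintro i j _ _ ⟨a, ha, rfl⟩ ⟨b, hb, rfl⟩
    simp only [AlgHom.toLinearMap_apply, ← map_mul, D.cm ha hb, Units.smul_def, map_zsmul]

theorem hom_quo (D : DG Ω) (hf : Function.Surjective f) (h : ∀ a, f a = 0 → f (D.d a) = 0) :
    D.Hom (D.quo hf h) f :=
  ⟨fun ha => ⟨_, ha, rfl⟩, fun a => ((D.ex_quo hf h).choose_spec a).symm⟩

theorem Hom.M (h : D.Hom D' f) {X : Matrix m n Ω} (hX : X ∈ D.M i m n) : X.map f ∈ D'.M i m n :=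
  fun a b => h.mem (hX a b)

theorem Hom.dm (h : D.Hom D' f) (X : Matrix m n Ω) : (D.dm X).map f = D'.dm (X.map f) := by
  ext a b
  exact h.d _

theorem mp_add (f : Ω →ₐ[ℂ] Ω') (X Y : Matrix m n Ω) : (X + Y).map f = X.map f + Y.map f :=
  Matrix.map_add _ (map_add f) _ _

theorem mp_sub (f : Ω →ₐ[ℂ] Ω') (X Y : Matrix m n Ω) : (X - Y).map f = X.map f - Y.map f :=
  Matrix.map_sub _ (map_sub f) _ _

variable [Fintype m]

theorem mp_mul (f : Ω →ₐ[ℂ] Ω') (X : Matrix l m Ω) (Y : Matrix m n Ω) :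
    (X * Y).map f = X.map f * Y.map f := Matrix.map_mul (f := f.toRingHom)

theorem mp_tr (f : Ω →ₐ[ℂ] Ω') (X : Matrix m m Ω) : f (trace X) = trace (X.map f) :=
  map_sum f _ _

theorem Hom.cur (h : D.Hom D' f) (A : Matrix m m Ω) : (D.cur A).map f = D'.cur (A.map f) := by
  rw [DG.cur, mp_add, mp_mul, h.dm, DG.cur]

variable (D)

/-- the canonical connection of an idempotent -/
def std (P : Matrix m m Ω) : Matrix m m Ω := P * D.dm P - D.dm P * P

/-- its first form -/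
def k1 (P : Matrix m m Ω) : Ω := D.c1 P (D.std P)

/-- its second form -/
def k2 (P : Matrix m m Ω) : Ω := D.c2 P (D.std P)

variable {D} {P Q : Matrix m m Ω}

theorem Hom.std (h : D.Hom D' f) (P : Matrix m m Ω) : (D.std P).map f = D'.std (P.map f) := by
  rw [DG.std, mp_sub, mp_mul, mp_mul, h.dm, DG.std]

theorem Hom.k1 (h : D.Hom D' f) (P : Matrix m m Ω) : f (D.k1 P) = D'.k1 (P.map f) := by
  rw [DG.k1, c1, mp_tr, mp_mul, h.cur, h.std, DG.k1, c1]

theorem Hom.k2 (h : D.Hom D' f) (P : Matrix m m Ω) : f (D.k2 P) = D'.k2 (P.map f) := by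
  rw [DG.k2, c2, mp_tr, mp_mul, mp_mul, h.cur, h.std, DG.k2, c2]

theorem con_std' (hP : P ∈ D.M 0 m m) (hPP : P * P = P) : D.Con P (D.std P) := by
  simpa only [add_zero, std] using con_std hP hPP (zero_mem _) (by simp)

theorem k1_mem (hP : P ∈ D.M 0 m m) (hPP : P * P = P) : D.k1 P ∈ D.G 2 := (con_std' hP hPP).c1_mem

theorem k2_mem (hP : P ∈ D.M 0 m m) (hPP : P * P = P) : D.k2 P ∈ D.G 4 := (con_std' hP hPP).c2_mem

theorem d_k1 (hP : P ∈ D.M 0 m m) (hPP : P * P = P) : D.d (D.k1 P) = 0 := (con_std' hP hPP).d_c1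

theorem d_k2 (hP : P ∈ D.M 0 m m) (hPP : P * P = P) : D.d (D.k2 P) = 0 := (con_std' hP hPP).d_c2

theorem k1_zero : D.k1 (0 : Matrix m m Ω) = 0 := by rw [k1, c1, Matrix.zero_mul, trace_zero]

theorem k2_zero : D.k2 (0 : Matrix m m Ω) = 0 := by rw [k2, c2, Matrix.zero_mul, trace_zero]

theorem k2_one (hP : P ∈ D.M 0 m m) (hPP : P * P = P)
    (h1 : ∀ a b c e, P a b * P c e = P a e * P c b) : D.k2 P = D.k1 P * D.k1 P :=
  (con_std' hP hPP).c2_one h1

/-- additivity up to exact forms -/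
theorem k_add [DecidableEq m] (hP : P ∈ D.M 0 m m) (hPP : P * P = P) (hQ : Q ∈ D.M 0 m m)
    (hQQ : Q * Q = Q) (h1 : P * Q = 0) (h2 : Q * P = 0) :
    (∃ β, D.k1 (P + Q) = D.k1 P + D.k1 Q + D.d β) ∧
      ∃ β, D.k2 (P + Q) = D.k2 P + D.k2 Q + D.d β := by
  obtain ⟨A, hA, hS⟩ := con_fam (D := D) (p := ![P, Q]) (fun x => by fin_cases x <;> assumption)
    fun x y => by fin_cases x <;> fin_cases y <;> simp [hPP, hQQ, h1, h2]
  rw [Fin.sum_univ_two] at hS
  have a1 : D.Con P A := hA 0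
  have a2 : D.Con Q A := hA 1
  have a3 : D.Con (P + Q) A := hS
  have s3 := con_std' a3.P0 a3.PP
  constructor
  · obtain ⟨x, -, hx⟩ := (con_std' hP hPP).tg1 a1
    obtain ⟨y, -, hy⟩ := (con_std' hQ hQQ).tg1 a2
    obtain ⟨z, -, hz⟩ := a3.tg1 s3
    refine ⟨x + y + z, ?_⟩
    have e : D.c1 (P + Q) A = D.c1 P A + D.c1 Q A := by simp only [c1, Matrix.add_mul, trace_add]
    rw [map_add, map_add, ← hx, ← hy, ← hz, k1, k1, k1, e]
    abel
  · obtain ⟨x, -, hx⟩ := (con_std' hP hPP).tg2 a1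
    obtain ⟨y, -, hy⟩ := (con_std' hQ hQQ).tg2 a2
    obtain ⟨z, -, hz⟩ := a3.tg2 s3
    refine ⟨x + y + z, ?_⟩
    have e : D.c2 (P + Q) A = D.c2 P A + D.c2 Q A := by simp only [c2, Matrix.add_mul, trace_add]
    rw [map_add, map_add, ← hx, ← hy, ← hz, k2, k2, k2, e]
    abel

variable [Fintype n] [DecidableEq n] {ι : Matrix m n Ω} {π : Matrix n m Ω}

/-- the forms in a local frame -/
theorem k_loc (hι : ι ∈ D.M 0 m n) (hπ : π ∈ D.M 0 n m) (h1 : ι * π = P) (h2 : π * ι = 1) :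
    D.k1 P = trace (D.cur (π * D.dm ι)) ∧
      D.k2 P = trace (D.cur (π * D.dm ι) * D.cur (π * D.dm ι)) := by
  have hP : P ∈ D.M 0 m m := h1 ▸ M.mul hι hπ rfl
  have e1 : P * ι = ι := by rw [← h1, Matrix.mul_assoc, h2, Matrix.mul_one]
  have hPP : P * P = P := by rw [← h1, ← Matrix.mul_assoc, h1, e1, h1]
  have e2 : D.dm ι = D.dm P * ι + P * D.dm ι := by rw [← dm_ev hP Even.zero, e1]
  have e3 : P * D.dm P * ι = 0 := by
    rw [← e1, ← Matrix.mul_assoc, P_dP_P hP hPP, Matrix.zero_mul]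
  have := eqv (A' := π * D.dm ι) (con_std' hP hPP).A1 hι hπ h1 h2 (by
    rw [std, Matrix.sub_mul, e3, Matrix.mul_assoc, e1, ← Matrix.mul_assoc, h1]
    conv_lhs => rw [e2]
    abel)
  rw [c1, c2, Matrix.one_mul, Matrix.one_mul] at this
  exact ⟨this.1.symm, this.2.symm⟩

/-- the transformation law of the connection matrices -/
theorem law {ι' : Matrix m n Ω} {π' : Matrix n m Ω} (hι : ι ∈ D.M 0 m n) (h1 : ι * π = P)
    (h2 : π * ι = 1) (h1' : ι' * π' = P) (h2' : π' * ι' = 1) :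
    D.dm (π * ι') + π * D.dm ι * (π * ι') = π * ι' * (π' * D.dm ι') := by
  have e1 : ι' = ι * (π * ι') := by
    rw [← Matrix.mul_assoc, h1, ← h1', Matrix.mul_assoc, h2', Matrix.mul_one]
  have e2 : π * ι' * π' = π := by
    rw [Matrix.mul_assoc, h1', ← h1, ← Matrix.mul_assoc, h2, Matrix.one_mul]
  rw [← Matrix.mul_assoc (π * ι'), e2]
  conv_rhs => rw [e1, dm_ev hι Even.zero, Matrix.mul_add, ← Matrix.mul_assoc π ι, h2,
    Matrix.one_mul, add_comm, ← Matrix.mul_assoc]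

end DG

end P275CW
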