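import Vale.Agent.P275CW.Cm1
import Vale.Agent.P275CW.Gm

/-!
P275 (helper25): the curve as a manifold, germs.
-/

set_option linter.all false

open scoped Manifold ContDiff Topology Matrix ComplexConjugate
open Filter Set Metric
open Vale.Agent.P272.K Vale.Agent.P299.IX Vale.Agent.P299.IX.Fock
  Vale.Agent.P281Z.Hg Vale.Agent.P281Z.Hg.G1H Vale.Agent.P275MC Vale.Agent.P275KU
  Vale.Agent.P275MK Vale.Agent.P275OM P275CW
open Vale.Agent.P275GC.At

noncomputable section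

namespace Vale.Agent.P275CW

theorem fd_conj (z : ℂ) : fderiv ℝ (fun w : ℂ => conj w) z = Complex.conjCLE.toContinuousLinearMap :=
  Complex.conjCLE.hasFDerivAt.fderiv

theorem epsV_z (z : ℂ) : epsV (fun c => dr c (fun v : Cm 1 => v 0) (c1 z)) = eps (hl 0) := by
  have a := dr_hl (fun w => w) z
  have b := dr_ah (fun w => w) z
  simp only [P281Z.Hm.wd, P281Z.Hm.wb, fderiv_fun_id, ContinuousLinearMap.id_apply, smul_eq_mul,
    mul_one, Complex.I_mul_I] at a b
  rw [epsV, Ka.sum_idx, Fin.sum_univ_one, Fin.sum_univ_one, a, b]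
  norm_num

theorem epsV_zb (z : ℂ) :
    epsV (fun c => dr c (fun v : Cm 1 => conj (v 0)) (c1 z)) = eps (ah 0) := by
  have a := dr_hl (fun w => conj w) z
  have b := dr_ah (fun w => conj w) z
  simp only [P281Z.Hm.wd, P281Z.Hm.wb, fd_conj, ContinuousLinearEquiv.coe_coe,
    Complex.conjCLE_apply, smul_eq_mul, mul_one, map_one, Complex.conj_I, mul_neg,
    Complex.I_mul_I] at a b
  rw [epsV, Ka.sum_idx, Fin.sum_univ_one, Fin.sum_univ_one, a, b]
  norm_num

variable {C : Type} [TopologicalSpace C] {A : P275GC.At C} {i : Fin A.N} {c : C}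
  [ChartedSpace (Cm 1) C] [IsManifold 𝓘(ℂ, Cm 1) ω C] [T2Space C] {u : Fin A.N → ℂ → ℂ}

theorem sa_e (hA : IsA A) (hc : c ∈ (A.e i).source) : Sa 1 c (A.e i) := sa_of (by
  filter_upwards [(A.e i).open_source.mem_nhds hc] with y hy
  exact (smAt_iff hA hy).2 (contDiffAt_id.congr_of_eventuallyEq
    (eventually_of_mem (isOpen_ball.mem_nhds (map_src hy)) fun _ a => rinv a)))

theorem sa_u (hA : IsA A) (hs : A.Sm ∞ u) (hc : c ∈ (A.e i).source) :
    Sa 1 c fun y => u i (A.e i y) :=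
  (sa_e hA hc).comp (eventually_of_mem (isOpen_ball.mem_nhds (map_src hc)) fun _ a => hs.at a i)

theorem sm_eta (hA : IsA A) (i : Fin A.N) : SmoothFn (n := 1) (A.ext i (A.η i)) :=
  (smR_iff hA).2 (sm_ext (isCompact_closedBall 0 1) A.unit_sub (cd_η i).contDiffOn (fun _ _ a =>
    η_zero (not_le.1 fun b => a (mem_closedBall_zero_iff.2 b)).le) i)

theorem sa_eta (hA : IsA A) (i : Fin A.N) : SmC 1 fun c => ((A.ext i (A.η i) c : ℝ) : ℂ) :=
  SmC.of_real (sm_eta hA i)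

/-- a form whose coefficients are `f dz ∧ dz̄` near `c` -/
theorem gq_top (hA : IsA A) (hc : c ∈ (A.e i).source) {a : SF 1 C} {f : ℂ → ℂ}
    (hf : Sa 1 c fun y => f (A.e i y))
    (h : ∀ᶠ y in 𝓝 c, cf A a i (A.e i y) = f (A.e i y) • ev Finset.univ) :
    gq c (Fr.of a) = gm 1 c (fun y => f (A.e i y)) *
      ((dgG 1 c).d (gm 1 c (A.e i)) * (dgG 1 c).d (gm 1 c fun y => conj (A.e i y))) := by
  obtain ⟨a1, h1⟩ := hf
  obtain ⟨a2, h2⟩ := sa_e hA hc
  obtain ⟨a3, h3⟩ := (sa_e hA hc).conj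
  rw [gm_eq a1 h1, gm_eq a2 h2, gm_eq a3 h3, d_gq, d_gq, ← map_mul, ← map_mul]
  refine gq_of_vl ?_
  filter_upwards [h, h1, h2.eventually_nhds, h3.eventually_nhds,
    (A.e i).open_source.mem_nhds hc] with y k k1 k2 k3 hy
  have he := hA.at hy
  have t : ∀ᶠ v in 𝓝 (ch A i y), A.e i ((ch A i).symm v) = v 0 :=
    eventually_of_mem ((ch A i).open_target.mem_nhds ((ch A i).map_source he.2))
      fun v a => rinv (ch_tgt.1 a)
  have e2 : ∀ l, dr l (fun v => a2.1 ((ch A i).symm v)) (ch A i y) =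
      dr l (fun v : Cm 1 => v 0) (c1 (A.e i y)) := fun l => dr_congr l (by
    filter_upwards [ev_src he k2, t] with v p q using p.trans q)
  have e3 : ∀ l, dr l (fun v => a3.1 ((ch A i).symm v)) (ch A i y) =
      dr l (fun v : Cm 1 => conj (v 0)) (c1 (A.e i y)) := fun l => dr_congr l (by
    filter_upwards [ev_src he k3, t] with v p q using p.trans (congrArg conj q))
  refine ⟨_, he, ?_⟩
  have s1 : SmC 1 a1.1 := a1.2
  have s2 : SmC 1 a2.1 := a2.2
  have s3 : SmC 1 a3.1 := a3.2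
  show _ = vl (wd (fn s1) (wd (dd 1 C (fn s2)) (dd 1 C (fn s3)))) _ _
  rw [wd_fn_vl _ _ he, wd_vl _ _ he, dd_fn_vl _ he, dd_fn_vl _ he, wg_epsV, funext e2, funext e3, epsV_z, epsV_zb,
    Matrix.mulVec_mulVec, top_eq, k1]
  exact k

theorem gq_om (hA : IsA A) (hs : A.Sm ∞ u) (hu : A.Dn u) (hc : c ∈ (A.e i).source) :
    gq c (Fr.of (om hA hs hu)) = gm 1 c (fun y => u i (A.e i y)) *
      ((dgG 1 c).d (gm 1 c (A.e i)) * (dgG 1 c).d (gm 1 c fun y => conj (A.e i y))) :=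
  gq_top hA hc (sa_u hA hs hc) (eventually_of_mem ((A.e i).open_source.mem_nhds hc)
    fun _ a => cf_om hA hs hu i (map_src a))

end Vale.Agent.P275CW
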