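import Vale.Agent.P275CW.Defs
import Vale.Agent.P275CC.Hom

/-!
# P275, Chern-Weil theory: families of idempotents are vector bundles
-/

set_option linter.all false

open Matrix Set P275CC

noncomputable section

namespace P275CW

variable {N : Type} [Fintype N] [DecidableEq N]

theorem idem_lin {P : Matrix N N ℂ} (h : P * P = P) : IsIdempotentElem (toLin' P) := by
  rw [IsIdempotentElem, Module.End.mul_eq_comp, ← toLin'_mul, h]

theorem idem_zero {P : Matrix N N ℂ} (h : P * P = P) (ht : trace P = 0) : P = 0 := by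
  have := LinearMap.IsIdempotentElem.eq_zero_of_trace_eq_zero (idem_lin h)
    (by rw [Matrix.trace_toLin'_eq, ht])
  exact toLin'.injective (by rw [this, map_zero])

/-- an idempotent factors through its image -/
theorem idem_fac {P : Matrix N N ℂ} {r : ℕ} (h : P * P = P) (ht : trace P = r) :
    ∃ (i : Matrix N (Fin r) ℂ) (p : Matrix (Fin r) N ℂ), i * p = P ∧ p * i = 1 := by
  have hp := LinearMap.IsIdempotentElem.isProj_range _ (idem_lin h)
  have e := hp.trace
  rw [Matrix.trace_toLin'_eq, ht] at e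
  let b := (Module.finBasisOfFinrankEq ℂ _ (Nat.cast_injective (R := ℂ) e).symm).equivFun
  refine ⟨LinearMap.toMatrix' ((LinearMap.range (toLin' P)).subtype ∘ₗ b.symm.toLinearMap),
    LinearMap.toMatrix' (b.toLinearMap ∘ₗ (toLin' P).rangeRestrict), ?_, ?_⟩
  · rw [← LinearMap.toMatrix'_comp]
    refine toLin'.injective ?_
    rw [toLin'_toMatrix']
    exact LinearMap.ext fun v => by simp
  · rw [← LinearMap.toMatrix'_comp, ← LinearMap.toMatrix'_id]
    refine congrArg _ (LinearMap.ext fun v => ?_)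
    simp only [LinearMap.comp_apply, LinearEquiv.coe_coe, LinearMap.id_apply]
    rw [← LinearEquiv.eq_symm_apply]
    exact Subtype.ext (hp.map_id _ (b.symm v).2)

theorem near {r : ℕ} {P : Matrix N N ℂ} {i : Matrix N (Fin r) ℂ} {p : Matrix (Fin r) N ℂ}
    (h : P * P = P) (ht : trace P = r) (d : (p * P * i).det ≠ 0) :
    (p * P * i)⁻¹ * p * P * (P * i) = 1 ∧ P * i * ((p * P * i)⁻¹ * p * P) = P := by
  have a : (p * P * i)⁻¹ * p * P * (P * i) = 1 := by
    rw [Matrix.mul_assoc, ← Matrix.mul_assoc P, h, Matrix.mul_assoc, ← Matrix.mul_assoc p,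
      nonsing_inv_mul _ d.isUnit]
  refine ⟨a, (sub_eq_zero.1 (idem_zero ?_ ?_)).symm⟩
  · have b : P * (P * i) = P * i := by rw [← Matrix.mul_assoc, h]
    have c : (p * P * i)⁻¹ * p * P * P = (p * P * i)⁻¹ * p * P := by rw [Matrix.mul_assoc, h]
    generalize (p * P * i)⁻¹ * p * P = π at *
    generalize P * i = ι at *
    rw [Matrix.sub_mul, Matrix.mul_sub, Matrix.mul_sub, h, ← Matrix.mul_assoc P, b,
      Matrix.mul_assoc ι π P, c, Matrix.mul_assoc ι π, ← Matrix.mul_assoc π, a, Matrix.one_mul,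
      sub_self, sub_zero]
  · rw [trace_sub, trace_mul_comm, a, ht, trace_one, Fintype.card_fin, sub_self]

theorem exr : EXR := by
  intro X _ N _ _ P r hc hP ht
  choose i p h1 h2 using fun x => idem_fac (hP x) (ht x)
  have c1 : ∀ x, Continuous fun y => p x * P y * i x := fun x =>
    (continuous_const.matrix_mul hc).matrix_mul continuous_const
  have c2 : ∀ x, ContinuousOn (fun y => P y * i x) {y | (p x * P y * i x).det ≠ 0} := fun x =>
    (hc.matrix_mul continuous_const).continuousOn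
  have c3 : ∀ x, ContinuousOn (fun y => (p x * P y * i x)⁻¹ * p x * P y)
      {y | (p x * P y * i x).det ≠ 0} := fun x =>
    ctOn_mul (ctOn_mul (fun y a => ((continuousAt_matrix_inv _ (by
      rw [Ring.inverse_eq_inv']; exact continuousAt_inv₀ a)).comp
        (c1 x).continuousAt).continuousWithinAt) continuousOn_const) hc.continuousOn
  refine ⟨⟨⟨X, fun x => {y | (p x * P y * i x).det ≠ 0},
    fun x => isOpen_ne_fun (c1 x).matrix_det continuous_const, fun x => ⟨x, ?_⟩⟩,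
    fun x x' y => (p x * P y * i x)⁻¹ * p x * P y * (P y * i x'),
    fun x x' => ctOn_mul ((c3 x).mono inter_subset_left) ((c2 x').mono inter_subset_right),
    fun x y a => (near (hP y) (ht y) a).1, fun x x' x'' y a b c => ?_⟩, _, _, c2, c3,
    fun x y a => (near (hP y) (ht y) a).2, fun _ _ _ _ _ => rfl⟩
  · show (p x * P x * i x).det ≠ 0
    rw [← h1 x, ← Matrix.mul_assoc, h2, Matrix.one_mul, h2, det_one]
    exact one_ne_zero
  · rw [Matrix.mul_assoc, ← Matrix.mul_assoc (P y * i x'), (near (hP y) (ht y) b).2,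
      ← Matrix.mul_assoc (P y), hP]

theorem sum : SUM := by
  intro X _ N n m k _ _ _ _ _ _ _ _ P Q V V₁ V₂ h h1 h2 pq qp
  have hP := h1.idem
  have hQ := h2.idem
  obtain ⟨ι, π, a1, a2, a3, a4⟩ := h
  replace a3 : ∀ i, ∀ x ∈ V.U i, ι i x * π i x = P x + Q x := a3
  obtain ⟨ι₁, π₁, b1, b2, b3, b4⟩ := h1
  obtain ⟨ι₂, π₂, c1, c2, c3, c4⟩ := h2
  have l : ∀ i, ∀ x ∈ V.U i, (P x + Q x) * ι i x = ι i x := fun i x a => by
    rw [← a3 i x a, Matrix.mul_assoc, a4 i i x a a, V.id i x a, Matrix.mul_one]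
  have l1 : ∀ i, ∀ x ∈ V₁.U i, P x * ι₁ i x = ι₁ i x := fun i x a => by
    rw [← b3 i x a, Matrix.mul_assoc, b4 i i x a a, V₁.id i x a, Matrix.mul_one]
  have l2 : ∀ i, ∀ x ∈ V₂.U i, Q x * ι₂ i x = ι₂ i x := fun i x a => by
    rw [← c3 i x a, Matrix.mul_assoc, c4 i i x a a, V₂.id i x a, Matrix.mul_one]
  have r1 : ∀ i, ∀ x ∈ V₁.U i, π₁ i x * P x = π₁ i x := fun i x a => by
    rw [← b3 i x a, ← Matrix.mul_assoc, b4 i i x a a, V₁.id i x a, Matrix.one_mul]
  have r2 : ∀ i, ∀ x ∈ V₂.U i, π₂ i x * Q x = π₂ i x := fun i x a => by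
    rw [← c3 i x a, ← Matrix.mul_assoc, c4 i i x a a, V₂.id i x a, Matrix.one_mul]
  have s1 : ∀ i, ∀ x ∈ V₁.U i, π₁ i x * (P x + Q x) = π₁ i x := fun i x a => by
    rw [← r1 i x a, Matrix.mul_assoc, Matrix.mul_add, hP, pq, add_zero]
  have s2 : ∀ i, ∀ x ∈ V₂.U i, π₂ i x * (P x + Q x) = π₂ i x := fun i x a => by
    rw [← r2 i x a, Matrix.mul_assoc, Matrix.mul_add, hQ, qp, zero_add]
  have t1 : ∀ i, ∀ x ∈ V₁.U i, (P x + Q x) * ι₁ i x = ι₁ i x := fun i x a => by
    rw [← l1 i x a, ← Matrix.mul_assoc, Matrix.add_mul, hP, qp, add_zero]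
  have t2 : ∀ i, ∀ x ∈ V₂.U i, (P x + Q x) * ι₂ i x = ι₂ i x := fun i x a => by
    rw [← l2 i x a, ← Matrix.mul_assoc, Matrix.add_mul, hQ, pq, zero_add]
  refine ⟨fun i j x => fromRows (π₁ j.1 x * ι i x) (π₂ j.2 x * ι i x), ⟨fun i j => ?_,
    fun i i' j j' x d d' e e' _ => ?_⟩, fun i j x d e =>
      bij_of_inv (g := fromCols (π i x * ι₁ j.1 x) (π i x * ι₂ j.2 x)) ?_ ?_⟩
  · refine continuousOn_pi.2 fun a => ?_
    rcases a with a | a
    · exact continuousOn_pi.1 (ctOn_mul ((b2 j.1).mono fun _ h => h.1.2.1)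
        ((a1 i).mono fun _ h => h.1.1)) a
    · exact continuousOn_pi.1 (ctOn_mul ((c2 j.2).mono fun _ h => h.1.2.2)
        ((a1 i).mono fun _ h => h.1.1)) a
  · show fromRows (π₁ j.1 x * ι i x) (π₂ j.2 x * ι i x) * V.g i i' x =
      fromBlocks (V₁.g j.1 j'.1 x) 0 0 (V₂.g j.2 j'.2 x) *
        fromRows (π₁ j'.1 x * ι i' x) (π₂ j'.2 x * ι i' x)
    rw [fromRows_mul, fromBlocks_mul_fromRows, ← a4 i i' x d d', ← b4 _ _ x e.1 e'.1,
      ← c4 _ _ x e.2 e'.2]
    simp only [Matrix.zero_mul, add_zero, zero_add, Matrix.mul_assoc]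
    rw [← Matrix.mul_assoc (ι i x), a3 i x d, l i' x d', ← Matrix.mul_assoc (ι₁ _ x), b3 _ x e'.1,
      ← Matrix.mul_assoc (ι₂ _ x), c3 _ x e'.2, ← Matrix.mul_assoc, ← Matrix.mul_assoc,
      r1 _ x e.1, r2 _ x e.2]
  · rw [fromCols_mul_fromRows]
    simp only [Matrix.mul_assoc]
    rw [← Matrix.mul_assoc (ι₁ _ x), b3 _ x e.1, ← Matrix.mul_assoc (ι₂ _ x), c3 _ x e.2,
      ← Matrix.mul_add, ← Matrix.add_mul, l i x d, a4 i i x d d, V.id i x d]
  · rw [fromRows_mul_fromCols, ← fromBlocks_one]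
    simp only [Matrix.mul_assoc]
    rw [← Matrix.mul_assoc (ι i x), ← Matrix.mul_assoc (ι i x), a3 i x d, t1 _ x e.1, t2 _ x e.2,
      b4 _ _ x e.1 e.1, c4 _ _ x e.2 e.2, V₁.id _ x e.1, V₂.id _ x e.2, ← r1 _ x e.1, ← l2 _ x e.2,
      ← r2 _ x e.2, ← l1 _ x e.1]
    simp only [Matrix.mul_assoc]
    rw [← Matrix.mul_assoc (P x), pq, ← Matrix.mul_assoc (Q x), qp]
    simp

end P275CW
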