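import Vale.Agent.P275CW.Defs
import Vale.Agent.P275CC.Pj
import Vale.Agent.P275KU.Cr
import Vale.Agent.P264Z.G.CP

/-!
# P275, Chern-Weil theory: the splitting step
-/

set_option linter.unusedSectionVars false

open scoped Manifold ContDiff Topology
open Set Matrix P275CC Vale.Agent.P272.K Vale.Agent.P272.K.Prod Vale.Agent.P281Z.Hg
  Vale.Agent.P281Z.Hg.Pb1H Vale.Agent.P275KU Vale.Agent.P264Z

noncomputable section

namespace P275CW

variable {N : Type} [Fintype N] [DecidableEq N] {K d : ℕ} {M : Type} [TopologicalSpace M]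
  [ChartedSpace (Cm d) M]

theorem smC_cont {f : M → ℂ} (hf : SmC d f) : Continuous f := continuous_iff_continuousAt.2 fun x => by
  have h := ca (d := d) x
  refine ((hf _ x h).continuousAt.comp ((chartAt (Cm d) x).continuousAt h.2)).congr ?_
  filter_upwards [(chartAt (Cm d) x).open_source.mem_nhds h.2] with y hy
  simp only [Function.comp_apply, (chartAt (Cm d) x).left_inv hy]

theorem SmM.cont {m n : Type} {P : M → Matrix m n ℂ} (h : SmM d P) : Continuous P :=
  continuous_pi fun a => continuous_pi fun b => smC_cont (h a b)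

theorem SmM.mul {m n k : Type} [Fintype n] {P : M → Matrix m n ℂ} {Q : M → Matrix n k ℂ}
    (h : SmM d P) (h' : SmM d Q) : SmM d fun x => P x * Q x := fun a b =>
  SmC.sum Finset.univ fun c => (h a c).mul (h' c b)

theorem SmM.ct {m n : Type} {P : M → Matrix m n ℂ} (h : SmM d P) : SmM d fun x => (P x)ᴴ :=
  fun a b => (h b a).star

theorem SmM.tr {P : M → Matrix N N ℂ} (h : SmM d P) : SmC d fun x => (P x).trace :=
  SmC.sum Finset.univ fun a => h a a

theorem SmM.smul {m n : Type} {P : M → Matrix m n ℂ} {f : M → ℂ} (hf : SmC d f) (h : SmM d P) :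
    SmM d fun x => f x • P x := fun a b => hf.mul (h a b)

theorem SmM.pull {m n : Type} {P : M → Matrix m n ℂ} (h : SmM d P) {d' : ℕ} {M' : Type}
    [TopologicalSpace M'] [ChartedSpace (Cm d') M'] {F : M' → M} (hF : Smo d' d F) :
    SmM d' fun x => P (F x) := fun a b => (h a b).pull hF

theorem ex_basis {P : Matrix N N ℂ} {r : ℕ} (h : P * P = P) (ht : trace P = r) :
    ∃ i : (Fin r → ℂ) →ₗ[ℂ] N → ℂ, Function.Injective i ∧ ∀ u, (∃ v, i v = u) ↔ P *ᵥ u = u := by
  have h1 : IsIdempotentElem (toLin' P) := by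
    rw [IsIdempotentElem, Module.End.mul_eq_comp, ← toLin'_mul, h]
  have h2 := (LinearMap.IsIdempotentElem.isProj_range _ h1).trace
  rw [Matrix.trace_toLin'_eq, ht, Nat.cast_inj] at h2
  let e := LinearEquiv.ofFinrankEq (R := ℂ) (Fin r → ℂ) (LinearMap.range (toLin' P))
    (by simpa using h2)
  refine ⟨(LinearMap.range (toLin' P)).subtype ∘ₗ e.toLinearMap,
    Subtype.val_injective.comp e.injective, fun u => ⟨?_, fun a => ⟨e.symm ⟨u, u, a⟩, by simp⟩⟩⟩
  rintro ⟨v, rfl⟩
  exact (LinearMap.IsIdempotentElem.mem_range_iff h1).1 (e v).2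

theorem mul_prj {P : Matrix N N ℂ} {u : N → ℂ} (hu : u ≠ 0) : P * prj u = prj u ↔ P *ᵥ u = u :=
  ⟨fun h => by rw [← prj_self hu, mulVec_mulVec, h], fun h => ext_mulVec fun v => by
    rw [← mulVec_mulVec, prj_mulVec, mulVec_smul, h]⟩

theorem prj_div {u : N → ℂ} {a b : N} (h : prj u b b ≠ 0) : prj u a b / prj u b b = u a / u b := by
  have e : ∀ c, prj u c b = (star u ⬝ᵥ u)⁻¹ * star (u b) * u c := fun c => congrFun (cl_prj u b) c
  rw [e] at h
  rw [e, e, mul_div_mul_left _ _ (left_ne_zero_of_mul h)]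

theorem prj_ne {u : N → ℂ} {b : N} (h : prj u b b ≠ 0) : u b ≠ 0 := by
  rw [show prj u b b = _ from congrFun (cl_prj u b) b] at h
  exact right_ne_zero_of_mul h

variable (e : N ≃ Fin (K + 1))

/-- homogeneous coordinates -/
def hc (p : CP K) : N → ℂ := (CP.rep p).1 ∘ e

theorem comp_ne {v : Fin (K + 1) → ℂ} (h : v ≠ 0) : v ∘ e ≠ 0 := fun a =>
  h (funext fun i => by simpa using congrFun a (e.symm i))

theorem comp_ne' {u : N → ℂ} (h : u ≠ 0) : u ∘ e.symm ≠ 0 := fun a =>
  h (funext fun i => by simpa using congrFun a (e i))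

theorem prj_mk (v : CP.V0 K) : prj (hc e (CP.mk v)) = prj (v.1 ∘ e) := by
  obtain ⟨a, ha, h⟩ := CP.exists_rep v
  rw [hc, h]
  exact prj_smul ha (v.1 ∘ e)

theorem smM_prj : SmM K fun p : CP K => prj (hc e p) := by
  rintro a b _ x ⟨⟨i, rfl⟩, -⟩
  have h : ∀ c, ContDiffAt ℝ ∞ (fun z => CP.ins i z (e c)) (CP.chart i x) := fun c =>
    (((CP.contDiff_ins i (e c)).of_le le_top).restrict_scalars ℝ).contDiffAt
  have h' : ∀ c, ContDiffAt ℝ ∞ (fun z => star (CP.ins i z (e c))) (CP.chart i x) := fun c =>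
    Complex.conjCLE.contDiff.contDiffAt.comp _ (h c)
  simp only [CP.chart_symm, CP.pt, prj_mk]
  exact ((ContDiffAt.sum fun c _ => (h' c).mul (h c)).inv
    (nsq_ne (comp_ne e (CP.ins_ne_zero i _)))).mul ((h a).mul (h' b))

/-- the lines in the image of `P` -/
def Ln (P : M → Matrix N N ℂ) : Set (M × CP K) := {y | P y.1 * prj (hc e y.2) = prj (hc e y.2)}

/-- the tautological bundle -/
def tau (P : M → Matrix N N ℂ) : LB (Ln e P) where
  ι := N
  U k := {y | prj (hc e y.1.2) k k ≠ 0}
  op k := isOpen_ne_fun ((smC_cont (smM_prj e k k)).comp (continuous_snd.comp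
    continuous_subtype_val)) continuous_const
  cov y := PJ.ex ⟨_, comp_ne e (CP.rep y.1.2).2, rfl⟩
  g k l y := prj (hc e y.1.2) k l / prj (hc e y.1.2) l l
  ct k l := ((smC_cont (smM_prj e k l)).comp (continuous_snd.comp
    continuous_subtype_val)).continuousOn.div ((smC_cont (smM_prj e l l)).comp (continuous_snd.comp
    continuous_subtype_val)).continuousOn fun _ h => h.2
  id _ _ h := div_self h
  cc i j l y _ hj hl := by
    rw [prj_div hj, prj_div hl, prj_div hl, div_mul_div_cancel₀ (prj_ne hj)]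

theorem pfib {P : M → Matrix N N ℂ} {r : ℕ} {x : M} (h : P x * P x = P x)
    (ht : trace (P x) = (r + 1 : ℕ)) :
    PFib (tau e P) ((fun y : Ln e P => y.1.1) ⁻¹' {x}) r 1 := by
  classical
  obtain ⟨i, hi, hr⟩ := ex_basis h ht
  have n1 : ∀ {v}, v ≠ 0 → i v ≠ 0 := fun a b => a (hi (b.trans (map_zero i).symm))
  let q0 : ({0}ᶜ : Set (Fin (r + 1) → ℂ)) → Ln e P := fun v =>
    ⟨(x, CP.mk ⟨i v.1 ∘ e.symm, comp_ne' e (n1 v.2)⟩), by
      simp only [Ln, mem_ofPred_eq, prj_mk, Function.comp_assoc, e.symm_comp_self, Function.comp_id]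
      exact (mul_prj (n1 v.2)).2 ((hr _).1 ⟨_, rfl⟩)⟩
  have c0 : Continuous q0 := (continuous_const.prodMk (CP.continuous_mk.comp
    ((continuous_pi fun a => (continuous_apply _).comp
      (i.continuous_of_finiteDimensional.comp continuous_subtype_val)).subtype_mk _))).subtype_mk _
  let q : (Fin (r + 1) → ℂ) → Ln e P := fun v =>
    q0 (if h : v = 0 then ⟨1, one_ne_zero⟩ else ⟨v, h⟩)
  have hq : ∀ {v} (h : v ≠ 0), q v = q0 ⟨v, h⟩ := fun h => by simp only [q, dif_neg h]
  have hp : ∀ {v}, v ≠ 0 → prj (hc e (q v).1.2) = prj (i v) := fun h => by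
    simp only [hq h, q0, prj_mk, Function.comp_assoc, e.symm_comp_self, Function.comp_id]
  refine ⟨q, fun k v => i v k, ?_, ?_, fun v w hv hw => ?_, fun (k : N) => ?_, fun (k : N) v hv a => ?_,
    fun (k : N) v c _ _ _ => by simp, fun (k l : N) v hv a b => ?_⟩
  · exact continuousOn_iff_continuous_domRestrict.2 (c0.congr fun v => (hq v.2).symm)
  · refine subset_antisymm ?_ fun y hy => ?_
    · rintro _ ⟨v, -, rfl⟩
      rfl
    · have a := comp_ne e (CP.rep y.1.2).2
      have b : P y.1.1 * prj (hc e y.1.2) = prj (hc e y.1.2) := y.2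
      rw [show y.1.1 = x from hy] at b
      obtain ⟨v, hv⟩ := (hr _).2 ((mul_prj a).1 b)
      have c : v ≠ 0 := fun c => a (by rw [← hv, c, map_zero])
      refine ⟨v, c, (hq c).trans (Subtype.ext (Prod.ext hy.symm ?_))⟩
      refine .trans (congrArg CP.mk (Subtype.ext ?_)) (CP.mk_rep _)
      simp only [hv, Function.comp_assoc, e.self_comp_symm, Function.comp_id]
  · rw [hq hv, hq hw, Subtype.ext_iff, Prod.ext_iff, CP.mk_eq_iff]
    refine ⟨fun ⟨_, c, a⟩ => ⟨c, hi (funext fun k => ?_)⟩, fun ⟨c, a⟩ => ⟨rfl, c, ?_⟩⟩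
    · simpa using (congrFun a (e k)).symm
    · simp only [a, map_smul]
      rfl
  · exact ((continuous_apply k).comp i.continuous_of_finiteDimensional).continuousOn
  · exact prj_ne (hp hv ▸ (a : prj (hc e (q v).1.2) k k ≠ 0))
  · have b' : prj (i v) l l ≠ 0 := hp hv ▸ (b : prj (hc e (q v).1.2) l l ≠ 0)
    change _ = prj (hc e (q v).1.2) k l / prj (hc e (q v).1.2) l l * _
    rw [hp hv, prj_div b', div_mul_cancel₀ _ (prj_ne b')]

attribute [local instance] prodCS isManifold_prod

/-- **the splitting step** -/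
theorem spl : SPL := by
  intro th d M _ _ _ _ _ N _ _ P r hP h1 h2
  cases isEmpty_or_nonempty N with
  | inl a =>
    have : IsEmpty M := ⟨fun x => by
      have := h2 x
      rw [trace, Finset.univ_eq_empty, Finset.sum_empty] at this
      exact Nat.cast_ne_zero.2 r.succ_ne_zero this.symm⟩
    exact ⟨d, M, _, _, ‹_›, ‹_›, ‹_›, id, smo_id, P, hP, fun y => this.elim y,
      fun a b _ => (th.empty M a).trans (th.empty M b).symm⟩
  | inr a =>
    obtain ⟨K, hK⟩ := Nat.exists_eq_succ_of_ne_zero (Fintype.card_ne_zero (α := N))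
    let e : N ≃ Fin (K + 1) := Fintype.equivFinOfCardEq hK
    have s1 := hP.pull (smo_fst (n := d) (m := K) (X := M) (Y := CP K))
    have s2 := (smM_prj e).pull (smo_snd (n := d) (m := K) (X := M) (Y := CP K))
    have s3 := (s1.mul s2).mul s1.ct
    let O : TopologicalSpace.Opens (M × CP K) :=
      ⟨{y | (P y.1 * prj (hc e y.2) * (P y.1)ᴴ).trace ≠ 0},
        isOpen_ne_fun (smC_cont s3.tr) continuous_const⟩
    have sv : Smo (d + K) (d + K) (Subtype.val : O → M × CP K) :=
      Vale.Agent.P275MC.smo_of_hol contMDiff_subtype_val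
    have : SecondCountableTopology (CP K) :=
      ChartedSpace.secondCountable_of_sigmaCompact (Cm K) (CP K)
    have hu : ∀ p, hc e p ≠ 0 := fun p => comp_ne e (CP.rep p).2
    refine ⟨d + K, O, inferInstance, inferInstance, inferInstance, inferInstance, inferInstance,
      Prod.fst ∘ Subtype.val, smo_comp sv smo_fst,
      fun y => act (P y.1.1) (prj (hc e y.1.2)) * P y.1.1,
      (SmM.smul ((s3.tr.pull sv).inv fun y => y.2) (s3.pull sv)).mul (s1.pull sv), fun y => ?_, ?_⟩
    · have a : P y.1.1 *ᵥ hc e y.1.2 ≠ 0 := fun a => y.2 (by rw [tr_conj, a]; simp)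
      have b := (mul_prj (P := P y.1.1) a).2 (by rw [mulVec_mulVec, h1])
      have c := (mul_prj a).2 (prj_self a)
      simp only [act_prj _ (hu _), Function.comp_apply]
      refine ⟨by rw [Matrix.mul_assoc, ← Matrix.mul_assoc (P _), b, ← Matrix.mul_assoc, c],
        by rw [← Matrix.mul_assoc, b], by rw [Matrix.mul_assoc, h1], ?_, fun _ _ _ _ => ?_⟩
      · rw [trace_mul_comm, b, prj, trace_smul, trace_vecMulVec, dotProduct_comm _ (star _),
          smul_eq_mul, inv_mul_cancel₀ (nsq_ne a)]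
      · simp only [prj, Matrix.smul_mul, vecMulVec_mul, Matrix.smul_apply, vecMulVec_apply, smul_eq_mul]
        ring
    · have := ChartedSpace.locallyCompactSpace (Cm d) M
      have cl : IsClosed (Ln e P) := isClosed_eq (s1.mul s2).cont s2.cont
      have : Nc M := ⟨inferInstance, inferInstance, inferInstance⟩
      have : Nc (Ln e P) := ⟨cl.locallyCompactSpace, inferInstance, inferInstance⟩
      have hg : ∀ y : Ln e P, y.1 ∈ O := fun y => by
        have a := (mul_prj (hu _)).1 y.2
        change trace _ ≠ 0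
        rw [tr_conj, a, inv_mul_cancel₀ (nsq_ne (hu _))]
        exact one_ne_zero
      let g : C(Ln e P, O) := ⟨fun y => ⟨y.1, hg y⟩, continuous_subtype_val.subtype_mk hg⟩
      let π : C(Ln e P, M) := ⟨fun y => y.1.1, continuous_fst.comp continuous_subtype_val⟩
      have hl := (th.lh π (tau e P) r 1
        (isProperMap_fst_of_compactSpace.comp cl.isProperMap_subtypeVal) one_ne_zero
        fun x => pfib e (h1 x) (h2 x)).1
      intro a b hab
      have k : ∀ c, ∑ i : Fin (r + 1), th.pb π (Pi.single (M := fun _ => th.H M) 0 c i) *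
          th.c1 (tau e P) ^ (i : ℕ) = th.pb g (th.pb ⟨_, (smo_comp sv smo_fst).cont⟩ c) := fun c => by
        rw [Finset.sum_eq_single 0 (fun i _ hi => by simp [hi]) (by simp), ← th.pb_comp]
        simp
        rfl
      have := hl ((k a).trans ((congrArg _ hab).trans (k b).symm))
      simpa using congrFun this 0

end P275CW
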