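import Vale.Agent.P275CW.Gm
import Vale.Agent.P275CW.Rep
import Vale.Agent.P275CW.Spl
import Vale.Agent.P275MC.C1
import Vale.Agent.P275MC.Pd
import Vale.Agent.P275Z.Th
import Vale.Agent.P275CC.Chi

/-!
# P275, the Chern-Weil theorem
-/

set_option linter.unusedSectionVars false
set_option backward.isDefEq.respectTransparency false

open scoped Manifold ContDiff Topology Matrix
open Filter Set
open Vale.Agent.P272.K Vale.Agent.P281Z.Hg Vale.Agent.P281Z.Hg.G1H Vale.Agent.P281Z.Hg.G2H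
  Vale.Agent.P281Z.Hg.Pb1H Vale.Agent.P275MC Vale.Agent.P275KU Vale.Agent.P275OM
  Vale.Agent.P275OM.Fr Vale.Agent.P275Z P275CC
open Vale.Agent.P275AR (Nb)

noncomputable section

namespace P275CW

variable {d : ℕ} {M : Type} [TopologicalSpace M] [ChartedSpace (Cm d) M] {x : M}
  {l m n N : Type}

/-- a matrix of smooth functions as a matrix of forms -/
def fnM {P : M → Matrix m n ℂ} (h : SmM d P) : Matrix m n (Fr d M) :=
  Matrix.of fun a b => of (fn (h a b))

theorem SmM.sa {P : M → Matrix m n ℂ} (h : SmM d P) (x : M) : SaM d x P :=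
  fun a b => Sa.of (h a b) x

theorem smM_of {P : M → Matrix m n ℂ} (h : ∀ x, SaM d x P) : SmM d P :=
  fun a b => Sa.smC fun x => h x a b

theorem fnM_gq {P : M → Matrix m n ℂ} (h : SmM d P) (x : M) : (fnM h).map (gq x) = gM d x P :=
  Matrix.ext fun a b => (gm_fn (h a b)).symm

theorem gqM_ext {X Y : Matrix m n (Fr d M)} (h : ∀ x, X.map (gq x) = Y.map (gq x)) : X = Y :=
  Matrix.ext fun a b => gq_ext fun x => congrFun₂ (h x) a b

theorem fnM_congr {P Q : M → Matrix m n ℂ} (hP : SmM d P) (hQ : SmM d Q) (h : ∀ x, P x = Q x) :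
    fnM hP = fnM hQ := by
  obtain rfl : P = Q := funext h
  rfl

theorem fnM_zero (h : SmM d fun _ : M => (0 : Matrix m n ℂ)) : fnM h = 0 := gqM_ext fun x => by
  rw [fnM_gq, gM_zero, Matrix.map_zero _ (map_zero _)]

theorem fnM_add {P Q : M → Matrix m n ℂ} (hP : SmM d P) (hQ : SmM d Q)
    (h : SmM d fun x => P x + Q x) : fnM h = fnM hP + fnM hQ := gqM_ext fun x => by
  rw [DG.mp_add, fnM_gq, fnM_gq, fnM_gq, gM_add (hP.sa x) (hQ.sa x)]

theorem fnM_mul [Fintype m] {P : M → Matrix l m ℂ} {Q : M → Matrix m n ℂ} (hP : SmM d P)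
    (hQ : SmM d Q) (h : SmM d fun x => P x * Q x) : fnM h = fnM hP * fnM hQ := gqM_ext fun x => by
  rw [DG.mp_mul, fnM_gq, fnM_gq, fnM_gq, gM_mul (hP.sa x) (hQ.sa x)]

theorem fnM_mul_eq [Fintype m] {P : M → Matrix l m ℂ} {Q : M → Matrix m n ℂ} {R : M → Matrix l n ℂ}
    (hP : SmM d P) (hQ : SmM d Q) (hR : SmM d R) (h : ∀ x, P x * Q x = R x) :
    fnM hP * fnM hQ = fnM hR := by
  obtain rfl : (fun x => P x * Q x) = R := funext h
  exact (fnM_mul hP hQ hR).symm

theorem fnM_one {q : M → Matrix m n ℂ} (hq : SmM d q)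
    (h : ∀ y a b c e, q y a b * q y c e = q y a e * q y c b) (a : m) (b : n) (c : m) (e : n) :
    fnM hq a b * fnM hq c e = fnM hq a e * fnM hq c b := gq_ext fun x => by
  have k : ∀ a b, gq x (fnM hq a b) = gm d x fun y => q y a b := fun a b => (gm_fn (hq a b)).symm
  simp only [map_mul, k, ← gm_mul (hq.sa x _ _) (hq.sa x _ _), h _ a b c e]

theorem gM_ev [Finite m] [Finite n] {F : M → Matrix m n ℂ} (h : SaM d x F) :
    ∃ U : Matrix m n (Fr d M), ∀ᶠ y in 𝓝 x, gM d y F = U.map (gq y) := by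
  choose u _ hu using fun a b => gm_ev (h a b)
  exact ⟨Matrix.of u, (eventually_all.2 fun a => eventually_all.2 (hu a)).mono fun y hy =>
    Matrix.ext hy⟩

theorem gM_mul_eq [Fintype m] {P : M → Matrix l m ℂ} {Q : M → Matrix m n ℂ} {R : M → Matrix l n ℂ}
    (hP : SaM d x P) (hQ : SaM d x Q) (h : ∀ᶠ y in 𝓝 x, P y * Q y = R y) :
    gM d x P * gM d x Q = gM d x R := (gM_mul hP hQ).symm.trans (gM_congr h)

theorem nc_mf (d : ℕ) (M : Type) [TopologicalSpace M] [ChartedSpace (Cm d) M] [T2Space M]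
    [SecondCountableTopology M] : Nc M :=
  ⟨ChartedSpace.locallyCompactSpace (Cm d) M, inferInstance, inferInstance⟩

variable [IsManifold 𝓘(ℂ, Cm d) ω M]

theorem fnM_mem {P : M → Matrix m n ℂ} (h : SmM d P) : fnM h ∈ (dgF d M).M 0 m n :=
  fun a b => fn_Dg (h a b)

theorem fnM_pb {d' : ℕ} {M' : Type} [TopologicalSpace M'] [ChartedSpace (Cm d') M']
    [IsManifold 𝓘(ℂ, Cm d') ω M'] {φ : M' → M} (hφ : Smo d' d φ) {P : M → Matrix m n ℂ}
    (h : SmM d P) (h' : SmM d' fun y => P (φ y)) : (fnM h).map (pbH hφ) = fnM h' :=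
  Matrix.ext fun a b => pb_fn hφ (h a b)

section t2

variable [T2Space M]

open Classical in
/-- the class of a closed form -/
def cF (u : Fr d M) : HH M := if h : dF u = 0 then clT ⟨sf u, h⟩ else 0

theorem cF_eq {u : Fr d M} (h : (dgF d M).d u = 0) : cF u = clT ⟨sf u, h⟩ := dif_pos h

theorem cF_cl {u : Fr d M} {i : ℤ} (hu : u ∈ (dgF d M).G i) (h : (dgF d M).d u = 0) :
    cF u = cl i ⟨sf u, h⟩ := (cF_eq h).trans (clT_Dg hu h)

theorem cF_zero : cF (0 : Fr d M) = 0 := (cF_eq (map_zero _)).trans (clT_zero _ rfl)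

theorem cF_d (u : Fr d M) : cF ((dgF d M).d u) = 0 := (cF_eq ((dgF d M).dd u)).trans (clT_dd _)

theorem cF_add {u v : Fr d M} (hu : (dgF d M).d u = 0) (hv : (dgF d M).d v = 0) :
    cF (u + v) = cF u + cF v := by
  have h : (dgF d M).d (u + v) = 0 := by rw [map_add, hu, hv, add_zero]
  rw [cF_eq hu, cF_eq hv, cF_eq h]
  exact map_add clT ⟨sf u, hu⟩ ⟨sf v, hv⟩

theorem cF_smul (c : ℂ) {u : Fr d M} (hu : (dgF d M).d u = 0) : cF (c • u) = c • cF u := by
  have h : (dgF d M).d (c • u) = 0 := by rw [map_smul, hu, smul_zero]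
  rw [cF_eq hu, cF_eq h]
  exact map_smul clT c ⟨sf u, hu⟩

theorem cF_neg {u : Fr d M} (hu : (dgF d M).d u = 0) : cF (-u) = -cF u := by
  rw [← neg_one_smul ℂ u, cF_smul _ hu, neg_one_smul]

theorem cF_mul {u v : Fr d M} (hu : (dgF d M).d u = 0) (hv : (dgF d M).d v = 0) :
    cF (u * v) = cF u * cF v := by
  rw [cF_eq hu, cF_eq hv, ← clT_wd]
  exact cF_eq (wd_mem_Zf ⟨sf u, hu⟩ ⟨sf v, hv⟩)

theorem cF_add_d {u : Fr d M} (hu : (dgF d M).d u = 0) (v : Fr d M) :
    cF (u + (dgF d M).d v) = cF u := by rw [cF_add hu ((dgF d M).dd v), cF_d, add_zero]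

theorem cF_pb {d' : ℕ} {M' : Type} [TopologicalSpace M'] [ChartedSpace (Cm d') M']
    [IsManifold 𝓘(ℂ, Cm d') ω M'] [T2Space M'] {φ : M' → M} (hφ : Smo d' d φ) {u : Fr d M}
    (hu : (dgF d M).d u = 0) : cF (pbH hφ u) = pq ⟨φ, hφ.cont⟩ (cF u) := by
  rw [cF_eq hu]
  exact (cF_eq (pb_Zf hφ ⟨sf u, hu⟩)).trans (clT_pb hφ ⟨sf u, hu⟩)

/-- the first Chern class from germs of connection forms -/
theorem cq_germ (L : LB M) {F : Fr d M} (hF : F ∈ (dgF d M).G 2) (h0 : (dgF d M).d F = 0)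
    (a : L.ι → ∀ x : M, Gx d x) (h1 : ∀ i, ∀ x ∈ L.U i, ∃ u, ∀ᶠ y in 𝓝 x, a i y = gq y u)
    (h2 : ∀ i, ∀ x ∈ L.U i, (dgG d x).d (a i x) = gq x F)
    (h3 : ∀ i j x, x ∈ L.U i → x ∈ L.U j → Sa d x (L.g i j) ∧
      gm d x (L.g i j) * (a i x - a j x) = (dgG d x).d (gm d x (L.g i j))) : cq L = cF F := by
  choose b hb using fun i x => gq_surj (a i x)
  rw [cq_eq, cF_cl hF h0]
  refine c1_eq_cl L h0 (fun i x => sf (b i x)) (fun i x hx => ?_) (fun i x hx => ?_)
    fun i j x hi hj => ?_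
  · obtain ⟨u, hu⟩ := h1 i x hx
    filter_upwards [hu, gq_ev ((hb i x).trans hu.self_of_nhds)] with y k1 k2
    exact gq_eq.1 ((hb i y).trans (k1.trans k2.symm))
  · exact gq_eq.1 ((d_gq (b i x)).symm.trans (by rw [hb, h2 i x hx]))
  · obtain ⟨⟨f, hf⟩, k⟩ := h3 i j x hi hj
    rw [gm_eq f hf, ← hb, ← hb, d_gq, ← map_sub, ← map_mul] at k
    exact ⟨f, f.2, hf, gq_eq.1 k⟩

variable [Fintype N] [DecidableEq N]

theorem fnM_idem {P : M → Matrix N N ℂ} (hP : SmM d P) (h : ∀ x, P x * P x = P x) :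
    fnM hP * fnM hP = fnM hP := fnM_mul_eq hP hP hP h

/-- the line bundle of an idempotent of rank one -/
theorem cw_line {q : M → Matrix N N ℂ} (hq : SmM d q) (h1 : ∀ y, q y * q y = q y)
    (h2 : ∀ y, (q y).trace = 1) (h3 : ∀ y a b c e, q y a b * q y c e = q y a e * q y c b) :
    ∃ L : LB M, Rep L.vb q ∧ cq L = -cF ((dgF d M).k1 (fnM hq)) := by
  have ct : ∀ a b, Continuous fun y => q y a b := fun a b => hq.cont.matrix_elem a b
  have op : ∀ k, IsOpen {y | q y k k ≠ 0} := fun k => isOpen_ne_fun (ct k k) continuous_const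
  let L : LB M :=
    { ι := N
      U := fun k => {y | q y k k ≠ 0}
      op := op
      cov := fun y => by
        by_contra! h
        exact zero_ne_one ((Finset.sum_eq_zero fun k _ => not_not.1 (h k)).symm.trans (h2 y))
      g := fun k j y => (q y k k)⁻¹ * q y k j
      ct := fun k j => ((ct k k).continuousOn.inv₀ fun _ h => h.1).mul (ct k j).continuousOn
      id := fun k y h => inv_mul_cancel₀ h
      cc := fun i j k y hi hj _ => by
        rw [mul_mul_mul_comm, h3 y i j j k, mul_comm (q y i k), mul_mul_mul_comm,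
          mul_assoc, mul_inv_cancel_left₀ hj] }
  let ι : N → M → Matrix N Unit ℂ := fun k y => Matrix.of fun a _ => q y a k
  let π : N → M → Matrix Unit N ℂ := fun k y => Matrix.of fun _ a => (q y k k)⁻¹ * q y k a
  have e1 : ∀ k y, q y k k ≠ 0 → ι k y * π k y = q y := fun k y h => by
    ext a b
    simp only [ι, π, Matrix.mul_apply, Matrix.of_apply, Finset.univ_unique, Finset.sum_singleton]
    rw [mul_left_comm, h3 y a k k b, mul_left_comm, inv_mul_cancel₀ h, mul_one]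
  have e2 : ∀ k j y, π k y * ι j y = L.g k j y • (1 : Matrix Unit Unit ℂ) := fun k j y => by
    ext a b
    simp only [ι, π, L, Matrix.mul_apply, Matrix.of_apply, mul_assoc, ← Finset.mul_sum,
      Matrix.smul_apply, Matrix.one_apply_eq, smul_eq_mul, mul_one]
    rw [← Matrix.mul_apply, h1]
  have s1 : ∀ k x, SaM d x (ι k) := fun k x a _ => hq.sa x a k
  have s2 : ∀ k x, q x k k ≠ 0 → SaM d x (π k) := fun k x h _ a =>
    ((hq.sa x k k).inv h).mul (hq.sa x k a)
  have g1 : ∀ k x, q x k k ≠ 0 → gM d x (ι k) * gM d x (π k) = gM d x q := fun k x h =>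
    gM_mul_eq (s1 k x) (s2 k x h) (((op k).eventually_mem h).mono (e1 k))
  have g2 : ∀ k x, q x k k ≠ 0 → gM d x (π k) * gM d x (ι k) = 1 := fun k x h =>
    (gM_mul_eq (s2 k x h) (s1 k x) (((op k).eventually_mem h).mono fun y hy => by
      rw [e2, L.id k y hy, one_smul])).trans gM_one
  have q0 := fnM_mem hq
  have qq := fnM_idem hq h1
  refine ⟨L, ⟨fun i => ι (i ()), fun i => π (i ()),
    fun i y _ => (s1 _ y).cont.continuousWithinAt,
    fun i y hy => (s2 _ y (LB.mem_vb.1 hy)).cont.continuousWithinAt,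
    fun i y hy => e1 _ y (LB.mem_vb.1 hy), fun i j y _ _ => by rw [e2, LB.vb_g]⟩, ?_⟩
  rw [← cF_neg (DG.d_k1 q0 qq)]
  refine cq_germ L (neg_mem (DG.k1_mem q0 qq)) (by rw [map_neg, DG.d_k1 q0 qq, neg_zero])
    (fun k x => -(gM d x (π k) * (dgG d x).dm (gM d x (ι k))) () ()) (fun k x h => ?_)
    (fun k x h => ?_) fun k j x hk hj => ⟨((hq.sa x k k).inv hk).mul (hq.sa x k j), ?_⟩
  · obtain ⟨U, hU⟩ := gM_ev (s2 k x h)
    obtain ⟨W, hW⟩ := gM_ev (s1 k x)
    refine ⟨-(U * (dgF d M).dm W) () (), ?_⟩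
    filter_upwards [hU, hW] with y k1 k2
    rw [k1, k2, ← (hom_gq y).dm, ← DG.mp_mul, map_neg]
    rfl
  · have m1 := DG.M.mul (gM_mem (d := d) (x := x) (π k)) (DG.M.dm (gM_mem (ι k))) (zero_add _) () ()
    have m2 := (dgG d x).cm m1 m1
    rw [Int.negOnePow_odd _ (by decide), Units.neg_smul, one_smul] at m2
    rw [map_neg, map_neg, (hom_gq x).k1, fnM_gq,
      (DG.k_loc (gM_mem _) (gM_mem _) (g1 k x h) (g2 k x h)).1]
    simp only [Matrix.trace, Matrix.diag, Finset.univ_unique, Finset.sum_singleton, DG.cur,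
      Matrix.add_apply, DG.dm_apply]
    rw [Matrix.mul_apply (M := gM d x (π k) * _), Finset.univ_unique, Finset.sum_singleton,
      DG.eq_zero_of_eq_neg m2, add_zero]
  · have k1 := congrFun₂ (DG.law (D := dgG d x) (gM_mem _) (g1 k x hk) (g2 k x hk) (g1 j x hj)
      (g2 j x hj)) () ()
    have k2 : (gM d x (π k) * gM d x (ι j)) () () = gm d x (L.g k j) := by
      rw [← gM_mul (s2 k x hk) (s1 j x), gM_apply]
      simp only [e2, Matrix.smul_apply, Matrix.one_apply_eq, smul_eq_mul, mul_one]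
    have m1 := DG.M.mul (gM_mem (d := d) (x := x) (π k)) (DG.M.dm (gM_mem (ι k))) (zero_add _) () ()
    have m2 := (dgG d x).cm (gm_mem (L.g k j)) m1
    rw [zero_mul, Int.negOnePow_zero, one_smul] at m2
    rw [Matrix.add_apply, DG.dm_apply, Matrix.mul_apply (M := gM d x (π k) * (dgG d x).dm _),
      Matrix.mul_apply (M := gM d x (π k) * gM d x (ι j)), Finset.univ_unique,
      Finset.sum_singleton, Finset.sum_singleton, k2, ← m2] at k1
    rw [eq_sub_of_add_eq k1, neg_sub_neg, mul_sub]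

end t2

variable [Fintype N] [DecidableEq N]

theorem cw_ind (h : MV0 ∧ LHP) (r : ℕ) : ∀ (d : ℕ) (M : Type) [TopologicalSpace M]
    [ChartedSpace (Cm d) M] [IsManifold 𝓘(ℂ, Cm d) ω M] [Nc M] (P : M → Matrix N N ℂ)
    (hP : SmM d P) (n : Type) [Fintype n] [DecidableEq n] (V : VB M n), Rep V P →
    (∀ x, (P x).trace = r) → ((thOf h).p1 V).1 = -cF ((dgF d M).k1 (fnM hP)) ∧
      ((thOf h).p2 V).1 = cF ((dgF d M).k2 (fnM hP)) := by
  induction r with
  | zero =>
    intro d M _ _ _ _ P hP n _ _ V hV ht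
    obtain rfl : P = fun _ => 0 := funext fun x => idem_zero (hV.idem x) ((ht x).trans Nat.cast_zero)
    have k := sum M N n n n _ _ V V V (by simpa using hV) hV hV (by simp) (by simp)
    have k1 := Th.p1_iso (τ := thOf h) k
    have k2 := Th.p2_iso (τ := thOf h) k
    rw [Th.p1_sum, left_eq_add] at k1
    rw [Th.p2_sum, left_eq_add] at k2
    rw [fnM_zero, DG.k1_zero, DG.k2_zero, cF_zero, k1, k2, neg_zero]
    exact ⟨rfl, rfl⟩
  | succ r ih =>
    intro d M _ _ _ _ P hP n _ _ V hV ht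
    obtain ⟨d', M', _, _, _, _, _, f, hf, q, hq, k, inj⟩ :=
      spl (thOf h) d M N P r hP hV.idem ht
    have := nc_mf d' M'
    have hPf : SmM d' fun y => P (f y) := fun a b => (hP a b).pull hf
    have hR : SmM d' fun y => P (f y) - q y := smM_of fun y => (hPf.sa y).sub (hq.sa y)
    have RR : ∀ y, (P (f y) - q y) * (P (f y) - q y) = P (f y) - q y := fun y => by
      rw [Matrix.sub_mul, Matrix.mul_sub, Matrix.mul_sub, hV.idem, (k y).1, (k y).2.1,
        (k y).2.2.1, sub_self, sub_zero]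
    have qR : ∀ y, q y * (P (f y) - q y) = 0 := fun y => by
      rw [Matrix.mul_sub, (k y).1, (k y).2.2.1, sub_self]
    have Rq : ∀ y, (P (f y) - q y) * q y = 0 := fun y => by
      rw [Matrix.sub_mul, (k y).1, (k y).2.1, sub_self]
    have tR : ∀ y, (P (f y) - q y).trace = r := fun y => by
      rw [Matrix.trace_sub, ht, (k y).2.2.2.1, Nat.cast_succ, add_sub_cancel_right]
    obtain ⟨W, hW⟩ := exr M' N _ r hR.cont RR tR
    obtain ⟨L, hL, cL⟩ := cw_line hq (fun y => (k y).1) (fun y => (k y).2.2.2.1)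
      fun y => (k y).2.2.2.2
    obtain ⟨i1, i2⟩ := ih d' M' _ hR _ W hW tR
    have iso := sum M' N n _ _ _ _ (V.pb ⟨f, hf.cont⟩) L.vb W
      (by simpa using hV.pb ⟨f, hf.cont⟩) hL hW qR Rq
    have k1 := congrArg Subtype.val (Th.p1_iso (τ := thOf h) iso)
    have k2 := congrArg Subtype.val (Th.p2_iso (τ := thOf h) iso)
    rw [Th.p1_sum, Th.p1_vb, Th.p1_pb, Th.coe_pe, Subalgebra.coe_add, Th.coe_c, i1] at k1
    rw [Th.p2_sum, Th.p2_vb, Th.p2_pb, Th.coe_pe, Subalgebra.coe_add, Subalgebra.coe_pow,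
      Th.coe_c, i2] at k2
    have q0 := fnM_mem hq
    have qq := fnM_idem hq fun y => (k y).1
    have R0 := fnM_mem hR
    have Rr := fnM_idem hR RR
    have P0 := fnM_mem hP
    have PP := fnM_idem hP hV.idem
    have z : SmM d' fun _ : M' => (0 : Matrix N N ℂ) := fun _ _ => SmC.const 0
    obtain ⟨⟨β, e1⟩, γ, e2⟩ := DG.k_add q0 qq R0 Rr ((fnM_mul_eq hq hR z qR).trans (fnM_zero z))
      ((fnM_mul_eq hR hq z Rq).trans (fnM_zero z))
    have e3 : (fnM hP).map (pbH hf) = fnM hq + fnM hR := by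
      rw [fnM_pb hf hP hPf, ← fnM_add hq hR (smM_of fun y => (hq.sa y).add (hR.sa y))]
      exact fnM_congr _ _ fun y => (add_sub_cancel _ _).symm
    have e4 := DG.k2_one q0 qq (fnM_one hq fun y => (k y).2.2.2.2)
    refine ⟨inj (k1.trans ?_), inj (k2.trans ?_)⟩
    · change cq L + (-cF _ : HH M') = pq _ _
      rw [map_neg, ← cF_pb hf (DG.d_k1 P0 PP), (hom_pbH hf).k1, e3, e1, cF_add_d (by
        rw [map_add, DG.d_k1 q0 qq, DG.d_k1 R0 Rr, add_zero]),
        cF_add (DG.d_k1 q0 qq) (DG.d_k1 R0 Rr), cL, neg_add]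
    · change (cq L ^ 2 : HH M') + (cF _ : HH M') = pq _ _
      rw [← cF_pb hf (DG.d_k2 P0 PP), (hom_pbH hf).k2, e3, e2, cF_add_d (by
        rw [map_add, DG.d_k2 q0 qq, DG.d_k2 R0 Rr, add_zero]),
        cF_add (DG.d_k2 q0 qq) (DG.d_k2 R0 Rr), cL, e4, cF_mul (DG.d_k1 q0 qq) (DG.d_k1 q0 qq),
        _root_.neg_sq, sq]

/-- **Chern-Weil theorem** -/
theorem cwg (h : MV0 ∧ LHP) [Nc M] [Fintype n] [DecidableEq n] {V : VB M n}
    {P : M → Matrix N N ℂ} (hP : SmM d P) (hV : Rep V P) {A : Matrix N N (Fr d M)}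
    (hA : (dgF d M).Con (fnM hP) A) : ((thOf h).p1 V).1 = -cF ((dgF d M).c1 (fnM hP) A) ∧
      ((thOf h).p2 V).1 = cF ((dgF d M).c2 (fnM hP) A) := by
  obtain ⟨k1, k2⟩ := cw_ind h _ d M P hP n V hV hV.tr
  have s := DG.con_std' hA.P0 hA.PP
  obtain ⟨β, -, e1⟩ := s.tg1 hA
  obtain ⟨γ, -, e2⟩ := s.tg2 hA
  rw [k1, k2, eq_add_of_sub_eq' e1, eq_add_of_sub_eq' e2, cF_add_d s.d_c1, cF_add_d s.d_c2]
  exact ⟨rfl, rfl⟩

end P275CW
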