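import Vale.Agent.P275CW.Cwg
import Vale.Agent.P275MC.Gy

/-!
# P275, the Chern-Weil theorem for local connection forms
-/

set_option linter.unusedSectionVars false
set_option backward.isDefEq.respectTransparency false

open scoped Manifold ContDiff Topology Matrix
open Filter Set TopologicalSpace
open Vale.Agent.P272.K Vale.Agent.P281Z.Hg Vale.Agent.P281Z.Hg.G1H Vale.Agent.P281Z.Hg.G2H
  Vale.Agent.P281Z.Hg.Pb1H Vale.Agent.P275MC Vale.Agent.P275KU Vale.Agent.P275OM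
  Vale.Agent.P275OM.Fr Vale.Agent.P275Z P275CC
open Vale.Agent.P275AR (Nb Nb_ZP)

noncomputable section

namespace P275CW

variable {d : ℕ} {M : Type} [TopologicalSpace M] [ChartedSpace (Cm d) M] {x : M}
  {l m n κ : Type} {a b : ∀ y : M, Gx d y}

/-- families of germs which come from one form near `x` -/
def Lr (a : ∀ y : M, Gx d y) (x : M) : Prop := ∃ u, ∀ᶠ y in 𝓝 x, a y = gq y u

namespace Lr

theorem gq (u : Fr d M) : Lr (fun y => gq y u) x := ⟨u, .of_forall fun _ => rfl⟩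

theorem gm {f : M → ℂ} (h : Sa d x f) : Lr (fun y => gm d y f) x :=
  let ⟨u, _, h⟩ := gm_ev h; ⟨u, h⟩

theorem congr (h : Lr a x) (e : ∀ᶠ y in 𝓝 x, a y = b y) : Lr b x :=
  let ⟨u, h⟩ := h; ⟨u, (h.and e).mono fun _ h => h.2.symm.trans h.1⟩

theorem ev (h : Lr a x) : ∀ᶠ y in 𝓝 x, Lr a y :=
  let ⟨u, h⟩ := h; h.eventually_nhds.mono fun _ h => ⟨u, h⟩

theorem add (h : Lr a x) (k : Lr b x) : Lr (fun y => a y + b y) x :=
  let ⟨u, h⟩ := h; let ⟨v, k⟩ := k
  ⟨u + v, (h.and k).mono fun _ h => by simp only [h.1, h.2, map_add]⟩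

theorem sub (h : Lr a x) (k : Lr b x) : Lr (fun y => a y - b y) x :=
  let ⟨u, h⟩ := h; let ⟨v, k⟩ := k
  ⟨u - v, (h.and k).mono fun _ h => by simp only [h.1, h.2, map_sub]⟩

theorem mul (h : Lr a x) (k : Lr b x) : Lr (fun y => a y * b y) x :=
  let ⟨u, h⟩ := h; let ⟨v, k⟩ := k
  ⟨u * v, (h.and k).mono fun _ h => by simp only [h.1, h.2, map_mul]⟩

theorem neg (h : Lr a x) : Lr (fun y => -a y) x :=
  let ⟨u, h⟩ := h; ⟨-u, h.mono fun _ h => by simp only [h, map_neg]⟩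

theorem smul (c : ℂ) (h : Lr a x) : Lr (fun y => c • a y) x :=
  let ⟨u, h⟩ := h; ⟨c • u, h.mono fun _ h => by simp only [h, map_smul]⟩

theorem zero : Lr (fun y => (0 : Gx d y)) x := ⟨0, .of_forall fun _ => (map_zero _).symm⟩

theorem sum {ι : Type*} (s : Finset ι) {a : ι → ∀ y : M, Gx d y} (h : ∀ i ∈ s, Lr (a i) x) :
    Lr (fun y => ∑ i ∈ s, a i y) x := by
  classical
  induction s using Finset.induction_on with
  | empty => exact zero
  | insert i s hi ih =>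
    simp only [Finset.sum_insert hi]
    exact (h i (by simp)).add (ih fun j hj => h j (by simp [hj]))

/-- a function times a family which is represented on its support -/
theorem cut {ρ : M → ℂ} (hρ : Sa d x ρ) (h : x ∈ tsupport ρ → Lr a x) :
    Lr (fun y => P275CW.gm d y ρ * a y) x := by
  by_cases hx : x ∈ tsupport ρ
  · exact (gm hρ).mul (h hx)
  · exact zero.congr (((isClosed_tsupport ρ).isOpen_compl.eventually_mem hx).mono fun y hy => by
      rw [gm_off hy, zero_mul])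

theorem glue (h : ∀ x, Lr a x) : ∃ u, ∀ x, P275CW.gq x u = a x := by
  choose u hu using h
  have k : ∀ x, x ∈ interior {y | a y = P275CW.gq y (u x)} := fun x =>
    mem_interior_iff_mem_nhds.2 (hu x)
  obtain ⟨B, hB⟩ := glue_forms _ (fun x => isOpen_interior) k (fun x => sf (u x))
    fun x y z h1 h2 => Nb_ZP (gq_eq.1 ((interior_subset h1 :
      z ∈ {y | a y = P275CW.gq y (u x)}).symm.trans (interior_subset h2 :
        z ∈ {w | a w = P275CW.gq w (u y)})))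
  exact ⟨of B, fun x => (gq_eq.2 ((isOpen_interior.eventually_mem (k x)).mono (hB x))).trans
    (hu x).self_of_nhds.symm⟩

end Lr

/-- the same for matrices -/
def LrM (A : ∀ y : M, Matrix m n (Gx d y)) (x : M) : Prop := ∀ p q, Lr (fun y => A y p q) x

namespace LrM

variable {A B : ∀ y : M, Matrix m n (Gx d y)}

theorem gq (U : Matrix m n (Fr d M)) : LrM (fun y => U.map (gq y)) x := fun p q => Lr.gq (U p q)

theorem gM {F : M → Matrix m n ℂ} (h : SaM d x F) : LrM (fun y => gM d y F) x :=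
  fun p q => Lr.gm (h p q)

theorem congr (h : LrM A x) (e : ∀ᶠ y in 𝓝 x, A y = B y) : LrM B x :=
  fun p q => (h p q).congr (e.mono fun _ h => congrFun₂ h p q)

theorem add (h : LrM A x) (k : LrM B x) : LrM (fun y => A y + B y) x :=
  fun p q => (h p q).add (k p q)

theorem sub (h : LrM A x) (k : LrM B x) : LrM (fun y => A y - B y) x :=
  fun p q => (h p q).sub (k p q)

theorem neg (h : LrM A x) : LrM (fun y => -A y) x := fun p q => (h p q).neg

theorem smul (h : Lr a x) (k : LrM A x) : LrM (fun y => a y • A y) x := fun p q => h.mul (k p q)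

theorem mul [Fintype m] {E : ∀ y : M, Matrix l m (Gx d y)} (h : LrM E x) (k : LrM A x) :
    LrM (fun y => E y * A y) x := fun p q => Lr.sum _ fun c _ => (h p c).mul (k c q)

theorem sum {ι : Type*} (s : Finset ι) {A : ι → ∀ y : M, Matrix m n (Gx d y)}
    (h : ∀ i ∈ s, LrM (A i) x) : LrM (fun y => ∑ i ∈ s, A i y) x := fun p q => by
  simp only [Matrix.sum_apply]
  exact Lr.sum s fun i hi => h i hi p q

theorem cut {ρ : M → ℂ} (hρ : Sa d x ρ) (h : x ∈ tsupport ρ → LrM A x) :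
    LrM (fun y => gm d y ρ • A y) x := fun p q => Lr.cut hρ fun hx => h hx p q

theorem tr [Fintype m] {E : ∀ y : M, Matrix m m (Gx d y)} (h : LrM E x) :
    Lr (fun y => (E y).trace) x := Lr.sum _ fun c _ => h c c

theorem glue (h : ∀ x, LrM A x) : ∃ U : Matrix m n (Fr d M), ∀ x, U.map (P275CW.gq x) = A x := by
  choose u hu using fun p q => Lr.glue fun x => h x p q
  exact ⟨Matrix.of u, fun x => Matrix.ext fun p q => hu p q x⟩

end LrM

theorem DG.std_loc {Ω : Type} [Ring Ω] [Algebra ℂ Ω] {D : DG Ω} [Fintype m] [Fintype n]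
    [DecidableEq n] {P : Matrix m m Ω} {ι : Matrix m n Ω} {π : Matrix n m Ω} (hι : ι ∈ D.M 0 m n)
    (hπ : π ∈ D.M 0 n m) (h1 : ι * π = P) (h2 : π * ι = 1) :
    D.dm ι + D.std P * ι = ι * (π * D.dm ι) := by
  have hP : P ∈ D.M 0 m m := h1 ▸ DG.M.mul hι hπ rfl
  have e1 : P * ι = ι := by rw [← h1, Matrix.mul_assoc, h2, Matrix.mul_one]
  have hPP : P * P = P := by rw [← h1, ← Matrix.mul_assoc, h1, e1, h1]
  have e2 : D.dm ι = D.dm P * ι + P * D.dm ι := by rw [← DG.dm_ev hP Even.zero, e1]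
  have e3 : P * D.dm P * ι = 0 := by
    rw [← e1, ← Matrix.mul_assoc, DG.P_dP_P hP hPP, Matrix.zero_mul]
  rw [DG.std, Matrix.sub_mul, e3, Matrix.mul_assoc, e1, ← Matrix.mul_assoc, h1]
  conv_lhs => rw [e2]
  abel

variable [IsManifold 𝓘(ℂ, Cm d) ω M]

theorem Lr.dd (h : Lr a x) : Lr (fun y => (dgG d y).d (a y)) x :=
  let ⟨u, h⟩ := h; ⟨dF u, h.mono fun _ h => by simp only [h, d_gq]⟩

theorem LrM.dm {A : ∀ y : M, Matrix m n (Gx d y)} (h : LrM A x) :
    LrM (fun y => (dgG d y).dm (A y)) x := fun p q => (h p q).dd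

theorem LrM.cur [Fintype m] {A : ∀ y : M, Matrix m m (Gx d y)} (h : LrM A x) :
    LrM (fun y => (dgG d y).cur (A y)) x := h.dm.add (h.mul h)

theorem Lr.pull {d' : ℕ} {M' : Type} [TopologicalSpace M'] [ChartedSpace (Cm d') M']
    [IsManifold 𝓘(ℂ, Cm d') ω M'] {φ : M' → M} (hφ : Smo d' d φ) {y : M'} (h : Lr a (φ y)) :
    Lr (fun y => pbg hφ y (a (φ y))) y :=
  let ⟨u, h⟩ := h
  ⟨pbH hφ u, ((hφ.cont.tendsto y).eventually h).mono fun _ h => by simp only [h, pbg_gq]⟩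

theorem mem_of_gq {i : ℤ} {u : Fr d M} (h : ∀ x, gq x u ∈ (dgG d x).G i) : u ∈ (dgF d M).G i :=
  mem_Dg.2 fun e x he => by
    obtain ⟨v, hv, k⟩ := h x
    have h1 : vl (sf v) e (e x) = vl (sf u) e (e x) := sub_eq_zero.1 (Nb_ZP (gq_eq.1 k) e he)
    exact h1 ▸ mem_Dg.1 hv e x he

variable [Fintype n] [DecidableEq n]

/-- local connection matrices for a smooth cocycle -/
structure LCon (V : VB M n) (A : V.ι → ∀ x : M, Matrix n n (Gx d x)) : Prop where
  sm : ∀ i j x, x ∈ V.U i → x ∈ V.U j → SaM d x (V.g i j)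
  mem : ∀ i, ∀ x ∈ V.U i, A i x ∈ (dgG d x).M 1 n n
  lr : ∀ i, ∀ x ∈ V.U i, LrM (A i) x
  law : ∀ i j x, x ∈ V.U i → x ∈ V.U j →
    (dgG d x).dm (gM d x (V.g i j)) + A i x * gM d x (V.g i j) = gM d x (V.g i j) * A j x

theorem LCon.pb {V : VB M n} {A : V.ι → ∀ x : M, Matrix n n (Gx d x)} (h : LCon V A) {d' : ℕ}
    {M' : Type} [TopologicalSpace M'] [ChartedSpace (Cm d') M'] [IsManifold 𝓘(ℂ, Cm d') ω M']
    {φ : M' → M} (hφ : Smo d' d φ) :
    LCon (V.pb ⟨φ, hφ.cont⟩) fun i y => (A i (φ y)).map (pbg hφ y) where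
  sm i j y hi hj := (h.sm i j (φ y) hi hj).pull hφ
  mem i y hi := (hom_pbg hφ y).M (h.mem i (φ y) hi)
  lr i y hi p q := (h.lr i (φ y) hi p q).pull hφ
  law i j y hi hj := by
    have := congrArg (·.map (pbg hφ y)) (h.law i j (φ y) hi hj)
    simp only [DG.mp_add, DG.mp_mul, (hom_pbg hφ y).dm, pbg_gM hφ (h.sm i j (φ y) hi hj)] at this
    exact this

variable [Nc M] {V : VB M n} {A : V.ι → ∀ x : M, Matrix n n (Gx d x)}

theorem gM_cc (h : ∀ i j x, x ∈ V.U i → x ∈ V.U j → SaM d x (V.g i j)) {i j k : V.ι}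
    (hi : x ∈ V.U i) (hj : x ∈ V.U j) (hk : x ∈ V.U k) :
    gM d x (V.g i j) * gM d x (V.g j k) = gM d x (V.g i k) :=
  gM_mul_eq (h i j x hi hj) (h j k x hj hk) (by
    filter_upwards [(V.op i).eventually_mem hi, (V.op j).eventually_mem hj,
      (V.op k).eventually_mem hk] with y using V.cc i j k y)

theorem gM_id {i : V.ι} (hi : x ∈ V.U i) : gM d x (V.g i i) = 1 :=
  (gM_congr (((V.op i).eventually_mem hi).mono (V.id i))).trans gM_one

theorem cwt_fin (h : MV0 ∧ LHP) (hA : LCon V A) [Fintype κ] (ix : κ → V.ι) (η : κ → M → ℂ)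
    (h1 : ∀ k, SmC d (η k)) (h2 : ∀ k, tsupport (η k) ⊆ V.U (ix k))
    (h3 : ∀ x, ∑ k, η k x * η k x ≠ 0) {F₁ F₂ : Fr d M}
    (e₁ : ∀ i, ∀ x ∈ V.U i, gq x F₁ = ((dgG d x).cur (A i x)).trace)
    (e₂ : ∀ i, ∀ x ∈ V.U i, gq x F₂ = ((dgG d x).cur (A i x) * (dgG d x).cur (A i x)).trace) :
    ((thOf h).p1 V).1 = -cF F₁ ∧ ((thOf h).p2 V).1 = cF F₂ := by
  classical
  let S : M → ℂ := fun x => (∑ k, η k x * η k x)⁻¹
  have sS : ∀ x, Sa d x S := fun x =>
    (Sa.sum _ fun k _ => (Sa.of (h1 k) x).mul (Sa.of (h1 k) x)).inv (h3 x)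
  have sp : ∀ k x, η k x ≠ 0 → x ∈ V.U (ix k) := fun k x hx => h2 k (subset_tsupport _ hx)
  let ι : V.ι → M → Matrix (κ × n) n ℂ := fun i x =>
    Matrix.of fun p b => η p.1 x * V.g (ix p.1) i x p.2 b
  let π : V.ι → M → Matrix n (κ × n) ℂ := fun i x =>
    Matrix.of fun a p => η p.1 x * (S x * V.g i (ix p.1) x a p.2)
  let P : M → Matrix (κ × n) (κ × n) ℂ := fun x =>
    Matrix.of fun p q => η p.1 x * (η q.1 x * (S x * V.g (ix p.1) (ix q.1) x p.2 q.2))
  have s1 : ∀ i, ∀ x ∈ V.U i, SaM d x (ι i) := fun i x hx p b =>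
    (Sa.of (h1 _) x).cut fun k => hA.sm _ _ x (h2 _ k) hx p.2 b
  have s2 : ∀ i, ∀ x ∈ V.U i, SaM d x (π i) := fun i x hx a p =>
    (Sa.of (h1 _) x).cut fun k => (sS x).mul (hA.sm _ _ x hx (h2 _ k) a p.2)
  have hP : SmM d P := smM_of fun x p q => (Sa.of (h1 _) x).cut fun k =>
    (Sa.of (h1 _) x).cut fun k' => (sS x).mul (hA.sm _ _ x (h2 _ k) (h2 _ k') p.2 q.2)
  have a1 : ∀ i, ∀ x ∈ V.U i, ι i x * π i x = P x := fun i x hx => by
    ext p q
    simp only [ι, π, P, Matrix.mul_apply, Matrix.of_apply]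
    by_cases k : η p.1 x = 0
    · simp [k]
    by_cases k' : η q.1 x = 0
    · simp [k']
    rw [← V.cc _ i _ x (sp _ x k) hx (sp _ x k'), Matrix.mul_apply]
    simp only [Finset.mul_sum]
    exact Finset.sum_congr rfl fun c _ => by ring
  have a2 : ∀ i j x, x ∈ V.U i → x ∈ V.U j → π i x * ι j x = V.g i j x := fun i j x hi hj => by
    ext a b
    have : ∀ k, ∑ c, η k x * (S x * V.g i (ix k) x a c) * (η k x * V.g (ix k) j x c b) =
        η k x * η k x * (S x * V.g i j x a b) := fun k => by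
      by_cases e : η k x = 0
      · simp [e]
      rw [← V.cc i _ j x hi (sp _ x e) hj, Matrix.mul_apply]
      simp only [Finset.mul_sum]
      exact Finset.sum_congr rfl fun c _ => by ring
    simp only [ι, π, Matrix.mul_apply, Matrix.of_apply, Fintype.sum_prod_type, this,
      ← Finset.sum_mul]
    exact mul_inv_cancel_left₀ (h3 x) _
  have g1 : ∀ i, ∀ x ∈ V.U i, gM d x (ι i) * gM d x (π i) = gM d x P := fun i x hx =>
    gM_mul_eq (s1 i x hx) (s2 i x hx) (((V.op i).eventually_mem hx).mono (a1 i))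
  have g2 : ∀ i j x, x ∈ V.U i → x ∈ V.U j → gM d x (π i) * gM d x (ι j) = gM d x (V.g i j) :=
    fun i j x hi hj => gM_mul_eq (s2 i x hi) (s1 j x hj) (by
      filter_upwards [(V.op i).eventually_mem hi, (V.op j).eventually_mem hj] with y using a2 i j y)
  have g3 : ∀ i, ∀ x ∈ V.U i, gM d x (π i) * gM d x (ι i) = 1 := fun i x hx =>
    (g2 i i x hx hx).trans (gM_id hx)
  let Θ : V.ι → ∀ x : M, Matrix (κ × n) (κ × n) (Gx d x) := fun i x =>
    gM d x (ι i) * (A i x - gM d x (π i) * (dgG d x).dm (gM d x (ι i))) * gM d x (π i)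
  have t1 : ∀ i j x, x ∈ V.U i → x ∈ V.U j → Θ i x = Θ j x := fun i j x hi hj => by
    have k1 := DG.law (D := dgG d x) (gM_mem _) (g1 i x hi) (g3 i x hi) (g1 j x hj) (g3 j x hj)
    have k2 := hA.law i j x hi hj
    have k3 : gM d x (π i) = gM d x (V.g i j) * gM d x (π j) := by
      rw [← g2 i j x hi hj, Matrix.mul_assoc, g1 j x hj, ← g1 i x hi, ← Matrix.mul_assoc,
        g3 i x hi, Matrix.one_mul]
    have k4 : gM d x (ι i) * gM d x (V.g i j) = gM d x (ι j) := by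
      rw [← g2 i j x hi hj, ← Matrix.mul_assoc, g1 i x hi, ← g1 j x hj, Matrix.mul_assoc,
        g3 j x hj, Matrix.mul_one]
    rw [g2 i j x hi hj] at k1
    have k5 : (A i x - gM d x (π i) * (dgG d x).dm (gM d x (ι i))) * gM d x (V.g i j) =
        gM d x (V.g i j) * (A j x - gM d x (π j) * (dgG d x).dm (gM d x (ι j))) := by
      rw [Matrix.sub_mul, Matrix.mul_sub, ← k1, ← k2]
      abel
    change _ * _ * gM d x (π i) = _ * _ * _
    rw [k3, ← k3, Matrix.mul_assoc]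
    nth_rewrite 2 [k3]
    rw [← Matrix.mul_assoc _ (gM d x (V.g i j)), k5, ← Matrix.mul_assoc, ← Matrix.mul_assoc, k4]
  choose c hc using V.cov
  obtain ⟨T, hT⟩ := LrM.glue (A := fun x => Θ (c x) x) fun x =>
    (((LrM.gM (s1 _ x (hc x))).mul ((hA.lr _ x (hc x)).sub ((LrM.gM (s2 _ x (hc x))).mul
      (LrM.gM (s1 _ x (hc x))).dm))).mul (LrM.gM (s2 _ x (hc x)))).congr
      (((V.op _).eventually_mem (hc x)).mono fun y hy => t1 _ _ y hy (hc y))
  have hV : Rep V P := ⟨ι, π, fun i x hx => (s1 i x hx).cont.continuousWithinAt,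
    fun i x hx => (s2 i x hx).cont.continuousWithinAt, a1, a2⟩
  have hC : (dgF d M).Con (fnM hP) ((dgF d M).std (fnM hP) + T) :=
    DG.con_std (fnM_mem hP) (fnM_idem hP hV.idem) (fun p q => mem_of_gq fun x =>
      (show gq x (T p q) = _ from congrFun₂ (hT x) p q).symm ▸ DG.M.mul (DG.M.mul (gM_mem _) (sub_mem (hA.mem _ x (hc x))
        (DG.M.mul (gM_mem _) (DG.M.dm (gM_mem _)) rfl)) (zero_add 1)) (gM_mem _) (add_zero 1) p q)
      (gqM_ext fun x => by
        rw [DG.mp_mul, DG.mp_mul, hT, fnM_gq, ← g1 _ x (hc x)]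
        simp only [Θ, Matrix.mul_assoc]
        rw [← Matrix.mul_assoc (gM d x (π _)) (gM d x (ι _)), ← Matrix.mul_assoc (gM d x (π _))
          (gM d x (ι _)), g3 _ x (hc x), Matrix.one_mul, Matrix.one_mul])
  have k : ∀ x, _ ∧ _ := fun x => DG.eqv (A' := A (c x) x) ((hom_gq x).M hC.A1) (gM_mem _)
    (gM_mem _) (g1 _ x (hc x)) (g3 _ x (hc x)) (by
      rw [DG.mp_add, (hom_gq x).std, hT, fnM_gq, Matrix.add_mul, ← add_assoc,
        DG.std_loc (gM_mem _) (gM_mem _) (g1 _ x (hc x)) (g3 _ x (hc x))]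
      simp only [Θ, Matrix.mul_assoc, g3 _ x (hc x), Matrix.mul_one, Matrix.mul_sub]
      abel)
  have f1 : F₁ = (dgF d M).c1 (fnM hP) ((dgF d M).std (fnM hP) + T) := gq_ext fun x => by
    rw [e₁ _ x (hc x), DG.c1, DG.mp_tr, DG.mp_mul, (hom_gq x).cur, fnM_gq, ← DG.c1, ← (k x).1,
      DG.c1, Matrix.one_mul]
  have f2 : F₂ = (dgF d M).c2 (fnM hP) ((dgF d M).std (fnM hP) + T) := gq_ext fun x => by
    rw [e₂ _ x (hc x), DG.c2, DG.mp_tr, DG.mp_mul, DG.mp_mul, (hom_gq x).cur, fnM_gq, ← DG.c2,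
      ← (k x).2, DG.c2, Matrix.one_mul]
  rw [f1, f2]
  exact cwg h hP hV hC

theorem LCon.con (hA : LCon V A) {i : V.ι} (hi : x ∈ V.U i) : (dgG d x).Con 1 (A i x) :=
  ⟨DG.M.one, hA.mem i x hi, Matrix.one_mul 1, by rw [DG.dm_one, zero_add, Matrix.mul_one,
    Matrix.one_mul]⟩

variable (d) in
include d in
theorem eq_of_loc {α β : HH M} (h : ∀ W : Set M, IsOpen W → IsCompact (closure W) →
    pq (inc W) α = pq (inc W) β) : α = β :=
  sub_eq_zero.1 (eq_zero_of_loc (d := d) fun W a b =>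
    (map_sub (pq (inc W)) α β).trans (sub_eq_zero.2 (h W a b)))

/-- **Chern-Weil theorem** for local connection matrices -/
theorem cwt (h : MV0 ∧ LHP) (hA : LCon V A) {F₁ F₂ : Fr d M}
    (e₁ : ∀ i, ∀ x ∈ V.U i, gq x F₁ = ((dgG d x).cur (A i x)).trace)
    (e₂ : ∀ i, ∀ x ∈ V.U i, gq x F₂ = ((dgG d x).cur (A i x) * (dgG d x).cur (A i x)).trace) :
    ((thOf h).p1 V).1 = -cF F₁ ∧ ((thOf h).p2 V).1 = cF F₂ := by
  have d1 : (dgF d M).d F₁ = 0 := gq_ext fun x => by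
    obtain ⟨i, hi⟩ := V.cov x
    have := (hA.con hi).d_c1
    rwa [DG.c1, Matrix.one_mul, ← e₁ i x hi, ← (hom_gq x).d, ← map_zero (gq x)] at this
  have d2 : (dgF d M).d F₂ = 0 := gq_ext fun x => by
    obtain ⟨i, hi⟩ := V.cov x
    have := (hA.con hi).d_c2
    rwa [DG.c2, Matrix.one_mul, ← e₂ i x hi, ← (hom_gq x).d, ← map_zero (gq x)] at this
  have key : ∀ W : Set M, IsOpen W → IsCompact (closure W) →
      pq (inc W) ((thOf h).p1 V).1 = pq (inc W) (-cF F₁) ∧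
        pq (inc W) ((thOf h).p2 V).1 = pq (inc W) (cF F₂) :=
    fun W hW hK => by
    let O : Opens M := ⟨W, hW⟩
    have := nc_mf d O
    have hφ : Smo d d (Subtype.val : O → M) := smo_of_hol contMDiff_subtype_val
    obtain ⟨P, hP⟩ := ex_PU (d := d) V.op hK fun x _ => mem_iUnion.2 (V.cov x)
    obtain ⟨k1, k2⟩ := cwt_fin h (hA.pb hφ) P.ix (fun k y => P.ρ k y.1)
      (fun k => (SmC.of_real (P.sm k)).pull hφ)
      (fun k y hy => P.sp k (by_contra fun hn => notMem_tsupport_iff_eventuallyEq.2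
        (((hφ.cont.tendsto y).eventually (notMem_tsupport_iff_eventuallyEq.1 hn)).mono
          fun z hz => by simp [show P.ρ k z.1 = 0 from hz]) hy))
      (fun y e => by
        have e1 : ∑ k, P.ρ k y.1 * P.ρ k y.1 = 0 := by exact_mod_cast e
        have e2 := (hP y.1 (subset_closure y.2)).self_of_nhds
        rw [Finset.sum_eq_zero fun k _ => mul_self_eq_zero.1 ((Finset.sum_eq_zero_iff_of_nonneg
          fun k _ => mul_self_nonneg _).1 e1 k (Finset.mem_univ k))] at e2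
        exact zero_ne_one e2)
      (F₁ := pbH hφ F₁) (F₂ := pbH hφ F₂)
      (fun i y hy => by rw [← pbg_gq, e₁ i y.1 hy, DG.mp_tr, (hom_pbg hφ y).cur])
      fun i y hy => by rw [← pbg_gq, e₂ i y.1 hy, DG.mp_tr, DG.mp_mul, (hom_pbg hφ y).cur]
    rw [Th.p1_pb, cF_pb hφ d1] at k1
    rw [Th.p2_pb, cF_pb hφ d2] at k2
    rw [map_neg]
    exact ⟨k1, k2⟩
  exact ⟨eq_of_loc d fun W a b => (key W a b).1, eq_of_loc d fun W a b => (key W a b).2⟩

/-- the Chern-Weil forms exist -/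
theorem LCon.ex (hA : LCon V A) : ∃ F₁ F₂ : Fr d M,
    (∀ i, ∀ x ∈ V.U i, gq x F₁ = ((dgG d x).cur (A i x)).trace) ∧
    ∀ i, ∀ x ∈ V.U i, gq x F₂ = ((dgG d x).cur (A i x) * (dgG d x).cur (A i x)).trace := by
  have k : ∀ i j x, x ∈ V.U i → x ∈ V.U j → _ ∧ _ := fun i j x hi hj =>
    DG.eqv (hA.mem i x hi) (gM_mem _) (gM_mem _) ((gM_cc hA.sm hi hj hi).trans (gM_id hi))
      ((gM_cc hA.sm hj hi hj).trans (gM_id hj)) (hA.law i j x hi hj)
  simp only [DG.c1, DG.c2, Matrix.one_mul] at k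
  choose c hc using V.cov
  obtain ⟨F₁, h1⟩ := Lr.glue (a := fun x => ((dgG d x).cur (A (c x) x)).trace) fun x =>
    (hA.lr _ x (hc x)).cur.tr.congr
      (((V.op _).eventually_mem (hc x)).mono fun y hy => (k _ _ y (hc y) hy).1)
  obtain ⟨F₂, h2⟩ := Lr.glue
    (a := fun x => ((dgG d x).cur (A (c x) x) * (dgG d x).cur (A (c x) x)).trace) fun x =>
    ((hA.lr _ x (hc x)).cur.mul (hA.lr _ x (hc x)).cur).tr.congr
      (((V.op _).eventually_mem (hc x)).mono fun y hy => (k _ _ y (hc y) hy).2)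
  exact ⟨F₁, F₂, fun i x hx => (h1 x).trans (k _ _ x hx (hc x)).1,
    fun i x hx => (h2 x).trans (k _ _ x hx (hc x)).2⟩

end P275CW
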