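import Vale.Agent.P275CC.Defs
import Vale.Agent.P275KU.Fn

/-!
# P275, Chern-Weil theory: bundles as images of idempotents, blocks
-/

set_option linter.unusedSectionVars false

open scoped Manifold ContDiff
open Matrix P275CC Vale.Agent.P272.K Vale.Agent.P281Z.Hg Vale.Agent.P275KU

noncomputable section

namespace P275CW

variable {X : Type} [TopologicalSpace X] {n N : Type} [Fintype n] [DecidableEq n] [Fintype N]
  [DecidableEq N]

/-- `V` is the image of the family of idempotents `P` -/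
def Rep (V : VB X n) (P : X → Matrix N N ℂ) : Prop :=
  ∃ (ι : V.ι → X → Matrix N n ℂ) (π : V.ι → X → Matrix n N ℂ),
    (∀ i, ContinuousOn (ι i) (V.U i)) ∧ (∀ i, ContinuousOn (π i) (V.U i)) ∧
    (∀ i, ∀ x ∈ V.U i, ι i x * π i x = P x) ∧
    ∀ i j x, x ∈ V.U i → x ∈ V.U j → π i x * ι j x = V.g i j x

/-- matrices of smooth functions -/
def SmM (d : ℕ) {M : Type} [TopologicalSpace M] [ChartedSpace (Cm d) M] {m n : Type}
    (P : M → Matrix m n ℂ) : Prop := ∀ a b, SmC d fun x => P x a b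

/-- a continuous family of idempotents of constant rank is a vector bundle -/
def EXR : Prop := ∀ (X : Type) [TopologicalSpace X] (N : Type) [Fintype N] [DecidableEq N]
  (P : X → Matrix N N ℂ) (r : ℕ), Continuous P → (∀ x, P x * P x = P x) →
  (∀ x, trace (P x) = r) → ∃ V : VB X (Fin r), Rep V P

/-- orthogonal idempotents give a direct sum -/
def SUM : Prop := ∀ (X : Type) [TopologicalSpace X] (N n m k : Type) [Fintype N] [DecidableEq N]
  [Fintype n] [DecidableEq n] [Fintype m] [DecidableEq m] [Fintype k] [DecidableEq k]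
  (P Q : X → Matrix N N ℂ) (V : VB X n) (V₁ : VB X m) (V₂ : VB X k),
  Rep V (fun x => P x + Q x) → Rep V₁ P → Rep V₂ Q → (∀ x, P x * Q x = 0) →
  (∀ x, Q x * P x = 0) → V.Iso (V₁.sum V₂)

/-- the splitting step: a smooth idempotent of positive rank splits off a line after a pull back
which is injective on cohomology -/
def SPL : Prop := ∀ (th : Th) (d : ℕ) (M : Type) [TopologicalSpace M] [ChartedSpace (Cm d) M]
  [IsManifold 𝓘(ℂ, Cm d) ω M] [T2Space M] [SecondCountableTopology M] (N : Type) [Fintype N]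
  [DecidableEq N] (P : M → Matrix N N ℂ) (r : ℕ), SmM d P → (∀ x, P x * P x = P x) →
  (∀ x, trace (P x) = (r + 1 : ℕ)) →
  ∃ (d' : ℕ) (M' : Type) (_ : TopologicalSpace M') (_ : ChartedSpace (Cm d') M')
    (_ : IsManifold 𝓘(ℂ, Cm d') ω M') (_ : T2Space M') (_ : SecondCountableTopology M')
    (f : M' → M) (hf : Smo d' d f) (q : M' → Matrix N N ℂ), SmM d' q ∧
    (∀ y, q y * q y = q y ∧ P (f y) * q y = q y ∧ q y * P (f y) = q y ∧ trace (q y) = 1 ∧
      ∀ a b c e, q y a b * q y c e = q y a e * q y c b) ∧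
    Function.Injective (th.pb (⟨f, hf.cont⟩ : C(M', M)))

theorem Rep.pb {Y : Type} [TopologicalSpace Y] {V : VB X n} {P : X → Matrix N N ℂ} (h : Rep V P)
    (f : C(Y, X)) : Rep (V.pb f) fun y => P (f y) := by
  obtain ⟨ι, π, h1, h2, h3, h4⟩ := h
  exact ⟨fun i y => ι i (f y), fun i y => π i (f y),
    fun i => (h1 i).comp f.continuous.continuousOn fun _ h => h,
    fun i => (h2 i).comp f.continuous.continuousOn fun _ h => h,
    fun i y => h3 i (f y), fun i j y => h4 i j (f y)⟩

theorem Rep.idem {V : VB X n} {P : X → Matrix N N ℂ} (h : Rep V P) (x : X) : P x * P x = P x := by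
  obtain ⟨ι, π, -, -, h3, h4⟩ := h
  obtain ⟨i, hi⟩ := V.cov x
  rw [← h3 i x hi, Matrix.mul_assoc, ← Matrix.mul_assoc (π i x), h4 i i x hi hi, V.id i x hi,
    Matrix.one_mul]

theorem Rep.tr {V : VB X n} {P : X → Matrix N N ℂ} (h : Rep V P) (x : X) :
    trace (P x) = Fintype.card n := by
  obtain ⟨ι, π, -, -, h3, h4⟩ := h
  obtain ⟨i, hi⟩ := V.cov x
  rw [← h3 i x hi, trace_mul_comm, h4 i i x hi hi, V.id i x hi, trace_one]

end P275CW
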